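import Vale.Agent.P176.Sym
import Mathlib.Data.Matrix.Block
import Mathlib.RingTheory.Ideal.Quotient.Operations
import Mathlib.RingTheory.TwoSidedIdeal.Operations
import Mathlib.RingTheory.Noetherian.Basic
import Mathlib.RingTheory.Finiteness.Prod

/-! The finite-dimensional algebra: five levels, extended by a square-zero bimodule. -/

noncomputable section

namespace Vale.Agent.P176

open Matrix

/-- Matrices of pairs over the five levels. -/
abbrev BMat : Type := Matrix (Fin 5) (Fin 5) Pair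

/-- The bimodule coordinates. -/
abbrev MMat : Type := Matrix (Fin 5 × Fin 2) (Fin 5) Op

/-- Ambient block matrices. -/
abbrev Big : Type := Matrix ((Fin 5 × Fin 2) ⊕ Fin 5) ((Fin 5 × Fin 2) ⊕ Fin 5) Op

/-- Degree bound for the algebra part. -/
def OkB (b : BMat) : Prop := ∀ l j : Fin 5, b l j ∈ fil ((l : ℤ) - (j : ℤ))

/-- Degree bound for the bimodule part, shifted by `s`. -/
def OkM (s : ℤ) (m : MMat) : Prop := ∀ (li : Fin 5 × Fin 2) (j : Fin 5), m li j ∈ sf ((li.1 : ℤ) + s - (j : ℤ))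

/-- The twisted copy of the algebra part. -/
def top (b : BMat) : Matrix (Fin 5 × Fin 2) (Fin 5 × Fin 2) Op :=
  fun i j => (b i.1 j.1).2 i.2 j.2

/-- The untwisted copy of the algebra part. -/
def bot (b : BMat) : Matrix (Fin 5) (Fin 5) Op := fun l j => (b l j).1

/-- `D` on every level. -/
def dbig : Matrix (Fin 5 × Fin 2) (Fin 5 × Fin 2) Op :=
  fun i j => if i.1 = j.1 then dmat op i.2 j.2 else 0

/-- The block matrix of `(b, m)`. -/
def blk (b : BMat) (m : MMat) : Big := fromBlocks (top b) m 0 (bot b)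

theorem top_mul (b c : BMat) : top (b * c) = top b * top c := by
  ext i j
  simp [top, mul_apply, Fintype.sum_prod_type, Prod.snd_sum, Matrix.sum_apply]

theorem bot_mul (b c : BMat) : bot (b * c) = bot b * bot c := by
  ext i j
  simp [bot, mul_apply, Prod.fst_sum]

theorem blk_mul (b c : BMat) (m m' : MMat) :
    blk b m * blk c m' = blk (b * c) (top b * m' + m * bot c) := by
  rw [blk, blk, blk, fromBlocks_multiply, top_mul, bot_mul]
  simp

theorem blk_add (b c : BMat) (m m' : MMat) : blk b m + blk c m' = blk (b + c) (m + m') := by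
  rw [blk, blk, blk, fromBlocks_add, add_zero]
  rfl

theorem blk_zero : blk 0 0 = 0 := by
  rw [blk, show top 0 = 0 from rfl, show bot 0 = 0 from rfl, fromBlocks_zero]

theorem blk_neg (b : BMat) (m : MMat) : -blk b m = blk (-b) (-m) := by
  rw [blk, blk, fromBlocks_neg, neg_zero]
  rfl

theorem blk_algebraMap (c : ℂ) : blk (algebraMap ℂ BMat c) 0 = algebraMap ℂ Big c := by
  ext i j
  rcases i with i | i <;> rcases j with j | j <;>
    simp [blk, top, bot, algebraMap_matrix_apply, Prod.ext_iff]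
  · obtain ⟨a, a'⟩ := i
    obtain ⟨e, e'⟩ := j
    by_cases h : a = e <;> by_cases h' : a' = e' <;> simp [h, h', algebraMap_matrix_apply]
  · split_ifs <;> simp

theorem OkB.mul {b c : BMat} (hb : OkB b) (hc : OkB c) : OkB (b * c) := fun l j => by
  rw [mul_apply]
  exact Submodule.sum_mem _ fun k _ =>
    fil_mono (le_of_eq (by ring)) (mul_mem_fil (hb l k) (hc k j))

theorem OkM.top_mul {b : BMat} {m : MMat} {s : ℤ} (hb : OkB b) (hm : OkM s m) :
    OkM s (top b * m) := fun li j => by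
  rw [mul_apply]
  exact Submodule.sum_mem _ fun k _ =>
    sf_mono (le_of_eq (by ring)) (mul_mem_sf (snd_entry_mem (hb li.1 k.1) li.2 k.2) (hm k j))

theorem OkM.mul_bot {b : BMat} {m : MMat} {s : ℤ} (hm : OkM s m) (hb : OkB b) :
    OkM s (m * bot b) := fun li j => by
  rw [mul_apply]
  exact Submodule.sum_mem _ fun k _ =>
    sf_mono (le_of_eq (by ring)) (mul_mem_sf (hm li k) (mem_sf.mpr ⟨_, hb k j, rfl⟩))

theorem OkM.zero (s : ℤ) : OkM s 0 := fun _ _ => zero_mem _

theorem OkM.add {m m' : MMat} {s : ℤ} (h : OkM s m) (h' : OkM s m') : OkM s (m + m') :=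
  fun li j => add_mem (h li j) (h' li j)

theorem OkB.zero : OkB 0 := fun _ _ => zero_mem _

theorem OkB.add {b c : BMat} (h : OkB b) (h' : OkB c) : OkB (b + c) :=
  fun l j => add_mem (h l j) (h' l j)

theorem OkB.algebraMap (c : ℂ) : OkB (algebraMap ℂ BMat c) := fun l j => by
  rw [algebraMap_matrix_apply]
  split_ifs with h
  · subst h
    rw [Algebra.algebraMap_eq_smul_one]
    exact Submodule.smul_mem _ _ (one_mem_fil (by omega))
  · exact zero_mem _

theorem dbig_mem (i k : Fin 2) : dmat op i k ∈ sf 1 := by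
  have h1 := one_mem_sf (zero_le_one (α := ℤ))
  have h0 := fun c => op_mem_sf c (le_refl (1 : ℤ))
  fin_cases i <;> fin_cases k <;> simp [dmat]
  · exact add_mem (neg_mem h1) (neg_mem (h0 _))
  · exact h0 _
  · exact h0 _
  · exact add_mem (neg_mem h1) (neg_mem (h0 _))

theorem OkM.dbig_mul {w : MMat} (hw : OkM 0 w) : OkM 1 (dbig * w) := fun li j => by
  rw [mul_apply]
  refine Submodule.sum_mem _ fun k _ => ?_
  unfold dbig
  split_ifs with h
  · exact sf_mono (by rw [h]; omega) (mul_mem_sf (dbig_mem li.2 k.2) (hw k j))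
  · simp

theorem top_dbig {b : BMat} (hb : OkB b) : top b * dbig = dbig * top b := by
  ext1 i j
  obtain ⟨l, i⟩ := i
  obtain ⟨j, k⟩ := j
  have h := congrFun (congrFun (dmat_comm (hb l j)) i) k
  simpa [mul_apply, Fintype.sum_prod_type, top, dbig, ite_mul, mul_ite, Finset.sum_ite_eq,
    Finset.sum_ite_eq'] using h

/-- The subalgebra of admissible block matrices. -/
def grp : Subalgebra ℂ Big where
  carrier := {g | ∃ b m, OkB b ∧ OkM 1 m ∧ g = blk b m}
  mul_mem' := by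
    rintro _ _ ⟨b, m, hb, hm, rfl⟩ ⟨c, m', hc, hm', rfl⟩
    exact ⟨_, _, hb.mul hc, (hm'.top_mul hb).add (hm.mul_bot hc), blk_mul _ _ _ _⟩
  add_mem' := by
    rintro _ _ ⟨b, m, hb, hm, rfl⟩ ⟨c, m', hc, hm', rfl⟩
    exact ⟨_, _, hb.add hc, hm.add hm', blk_add _ _ _ _⟩
  algebraMap_mem' c := ⟨_, 0, OkB.algebraMap c, OkM.zero 1, (blk_algebraMap c).symm⟩

/-- The relations `D · m` as an ideal. -/
def idl : @Ideal grp Ring.toSemiring where
  carrier := {g | ∃ w, OkM 0 w ∧ (g : Big) = blk 0 (dbig * w)}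
  add_mem' := by
    rintro x y ⟨w, hw, hx⟩ ⟨w', hw', hy⟩
    exact ⟨w + w', hw.add hw', by push_cast; rw [hx, hy, blk_add, Matrix.mul_add, add_zero]⟩
  zero_mem' := ⟨0, OkM.zero 0, by simp [blk_zero]⟩
  smul_mem' := by
    rintro ⟨_, b, m, hb, hm, rfl⟩ x ⟨w, hw, hx⟩
    refine ⟨top b * w, hw.top_mul hb, ?_⟩
    rw [smul_eq_mul]
    push_cast
    rw [hx, blk_mul, mul_zero, ← Matrix.mul_assoc, top_dbig hb, Matrix.mul_assoc,
      show bot 0 = 0 from rfl, Matrix.mul_zero, add_zero]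

instance idl_twoSided : idl.IsTwoSided := by
  constructor
  rintro x ⟨_, b, m, hb, hm, rfl⟩ ⟨w, hw, hx⟩
  refine ⟨w * bot b, hw.mul_bot hb, ?_⟩
  push_cast
  rw [hx, blk_mul, zero_mul, show top 0 = 0 from rfl, Matrix.zero_mul, zero_add, Matrix.mul_assoc]

/-- The algebra `B ⋉ M`. -/
abbrev Alg : Type := grp ⧸ idl

theorem blk_entry_mem {b : BMat} {m : MMat} (hb : OkB b) (hm : OkM 1 m) (i j : (Fin 5 × Fin 2) ⊕ Fin 5) :
    blk b m i j ∈ sf 5 := by
  rcases i with i | i <;> rcases j with j | j <;> simp only [blk, fromBlocks_apply₁₁,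
    fromBlocks_apply₁₂, fromBlocks_apply₂₁, fromBlocks_apply₂₂, Matrix.zero_apply]
  · exact sf_mono (by omega) (snd_entry_mem (hb i.1 j.1) i.2 j.2)
  · exact sf_mono (by omega) (hm i j)
  · exact zero_mem _
  · exact sf_mono (by omega) (mem_sf.mpr ⟨_, hb i j, rfl⟩)

theorem grp_entry_mem (g : grp) (i j : (Fin 5 × Fin 2) ⊕ Fin 5) : (g : Big) i j ∈ sf 5 := by
  obtain ⟨_, b, m, hb, hm, rfl⟩ := g
  exact blk_entry_mem hb hm i j

/-- Coordinates for the admissible block matrices. -/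
abbrev Coords : Type :=
  ((l : Fin 5) → (j : Fin 5) → fil ((l : ℤ) - (j : ℤ))) ×
    ((li : Fin 5 × Fin 2) → (j : Fin 5) → sf ((li.1 : ℤ) + 1 - (j : ℤ)))

instance grp_finite : Module.Finite ℂ grp := by
  let ψ : Coords →ₗ[ℂ] grp :=
    { toFun := fun x => ⟨blk (fun l j => x.1 l j) (fun li j => x.2 li j),
        _, _, fun l j => (x.1 l j).2, fun li j => (x.2 li j).2, rfl⟩
      map_add' := fun x y => Subtype.ext (blk_add _ _ _ _).symm
      map_smul' := fun c x => Subtype.ext (by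
        ext1 i j
        rcases i with i | i <;> rcases j with j | j <;>
          first | rfl | exact (smul_zero c).symm) }
  refine Module.Finite.of_surjective ψ fun g => ?_
  obtain ⟨_, b, m, hb, hm, rfl⟩ := g
  exact ⟨(fun l j => ⟨b l j, hb l j⟩, fun li j => ⟨m li j, hm li j⟩), rfl⟩

instance alg_finite : Module.Finite ℂ Alg :=
  Module.Finite.of_surjective (Ideal.Quotient.mkₐ ℂ idl).toLinearMap Ideal.Quotient.mk_surjective

open Classical in
/-- The class of `(b, m)` in the algebra (zero if the degree bounds fail). -/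
def mkA (b : BMat) (m : MMat) : Alg :=
  if h : OkB b ∧ OkM 1 m then Ideal.Quotient.mk idl ⟨blk b m, b, m, h.1, h.2, rfl⟩ else 0

theorem mkA_of {b : BMat} {m : MMat} (hb : OkB b) (hm : OkM 1 m) :
    mkA b m = Ideal.Quotient.mk idl ⟨blk b m, b, m, hb, hm, rfl⟩ := by
  rw [mkA, dif_pos ⟨hb, hm⟩]

theorem mkA_mul {b c : BMat} {m m' : MMat} (hb : OkB b) (hm : OkM 1 m) (hc : OkB c)
    (hm' : OkM 1 m') : mkA b m * mkA c m' = mkA (b * c) (top b * m' + m * bot c) := by
  rw [mkA_of hb hm, mkA_of hc hm', mkA_of (hb.mul hc) ((hm'.top_mul hb).add (hm.mul_bot hc)),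
    ← map_mul]
  exact congrArg _ (Subtype.ext (blk_mul _ _ _ _))

theorem mkA_add {b c : BMat} {m m' : MMat} (hb : OkB b) (hm : OkM 1 m) (hc : OkB c)
    (hm' : OkM 1 m') : mkA b m + mkA c m' = mkA (b + c) (m + m') := by
  rw [mkA_of hb hm, mkA_of hc hm', mkA_of (hb.add hc) (hm.add hm'), ← map_add]
  exact congrArg _ (Subtype.ext (blk_add _ _ _ _))

theorem exists_mkA (a : Alg) : ∃ b m, OkB b ∧ OkM 1 m ∧ a = mkA b m := by
  obtain ⟨⟨_, b, m, hb, hm, rfl⟩, rfl⟩ := Ideal.Quotient.mk_surjective a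
  exact ⟨b, m, hb, hm, (mkA_of hb hm).symm⟩

theorem mkA_eq_zero {b : BMat} {m : MMat} (hb : OkB b) (hm : OkM 1 m) :
    mkA b m = 0 ↔ b = 0 ∧ ∃ w, OkM 0 w ∧ m = dbig * w := by
  rw [mkA_of hb hm, Ideal.Quotient.eq_zero_iff_mem]
  constructor
  · rintro ⟨w, hw, e⟩
    have e' := fromBlocks_inj.mp e
    refine ⟨?_, w, hw, e'.2.1⟩
    ext1 l j
    exact fst_eq_zero (hb l j) (congrFun (congrFun e'.2.2.2 l) j)
  · rintro ⟨rfl, w, hw, rfl⟩
    exact ⟨w, hw, rfl⟩

theorem mkA_zero : mkA 0 0 = 0 :=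
  (mkA_eq_zero OkB.zero (OkM.zero 1)).mpr ⟨rfl, 0, OkM.zero 0, by simp⟩

end Vale.Agent.P176
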