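import Mathlib.RingTheory.MvPolynomial.EulerIdentity
import Mathlib.Data.Complex.Basic
import Mathlib.LinearAlgebra.Matrix.Notation
import Mathlib.Tactic.FinCases
import Mathlib.Tactic.LinearCombination
import Mathlib.Tactic.Ring

/-! The Koszul complex in four variables, degree by degree. -/

noncomputable section

namespace Vale.Agent.P176

open MvPolynomial

end Vale.Agent.P176

namespace Vale.Agent.P176

open MvPolynomial Matrix

/-- The polynomial ring of symbols. -/
abbrev SPol : Type := MvPolynomial (Fin 4) ℂ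

/-- First Koszul matrix. -/
def kz1 : Matrix (Fin 4) (Fin 1) SPol := !![X 0; X 1; X 2; X 3]

/-- Second Koszul matrix. -/
def kz2 : Matrix (Fin 6) (Fin 4) SPol :=
  !![-X 1, X 0, 0, 0;
     -X 2, 0, X 0, 0;
     -X 3, 0, 0, X 0;
     0, -X 2, X 1, 0;
     0, -X 3, 0, X 1;
     0, 0, -X 3, X 2]

/-- Third Koszul matrix. -/
def kz3 : Matrix (Fin 4) (Fin 6) SPol :=
  !![X 2, -X 1, 0, X 0, 0, 0;
     X 3, 0, -X 1, 0, X 0, 0;
     0, X 3, -X 2, 0, 0, X 0;
     0, 0, 0, X 3, -X 2, X 1]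

/-- Fourth Koszul matrix. -/
def kz4 : Matrix (Fin 1) (Fin 4) SPol := !![-X 3, X 2, -X 1, X 0]

theorem euler {d : ℕ} {g : SPol} (hg : g.IsHomogeneous d) :
    X 0 * pderiv 0 g + X 1 * pderiv 1 g + X 2 * pderiv 2 g + X 3 * pderiv 3 g =
      (d : SPol) * g := by
  have := hg.sum_X_mul_pderiv
  rw [Fin.sum_univ_four, nsmul_eq_mul] at this
  exact this

theorem natCast_mul_cancel {n : ℕ} (hn : n ≠ 0) {a b : SPol} (h : (n : SPol) * a = b) :
    a = C ((n : ℂ)⁻¹) * b := by
  rw [← h, ← mul_assoc]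
  rw [show (n : SPol) = C (n : ℂ) by simp, ← C_mul, inv_mul_cancel₀ (Nat.cast_ne_zero.mpr hn), C_1,
    one_mul]

theorem pderiv_of_deg_zero {g : SPol} (hg : g.IsHomogeneous 0) (i : Fin 4) : pderiv i g = 0 := by
  rw [totalDegree_eq_zero_iff_eq_C.mp ((totalDegree_zero_iff_isHomogeneous (p := g)).mpr hg), pderiv_C]

theorem isHom_pderiv {d : ℕ} {g : SPol} (hg : g.IsHomogeneous (d + 1)) (i : Fin 4) :
    (pderiv i g).IsHomogeneous d := by
  simpa using hg.pderiv (i := i)

theorem isHom_scale {d : ℕ} {g : SPol} (hg : g.IsHomogeneous d) (c : ℂ) :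
    (C c * g).IsHomogeneous d := hg.C_mul c

/-- Exactness in the positions `1,2,3,4`, degree by degree, with a degree bound. -/
def KExact {p q r : ℕ} (k' : Matrix (Fin p) (Fin q) SPol) (k : Matrix (Fin q) (Fin r) SPol) :
    Prop :=
  ∀ (d : ℕ) (g : Fin q → SPol), (∀ i, (g i).IsHomogeneous d) → g ᵥ* k = 0 →
    (d = 0 → g = 0) ∧ ∀ e, d = e + 1 →
      ∃ h : Fin p → SPol, (∀ i, (h i).IsHomogeneous e) ∧ h ᵥ* k' = g

/-- Homotopy from position one to position two. -/
def hmt1 (g : Fin 4 → SPol) : Fin 6 → SPol :=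
  ![pderiv 0 (g 1) - pderiv 1 (g 0), pderiv 0 (g 2) - pderiv 2 (g 0),
    pderiv 0 (g 3) - pderiv 3 (g 0), pderiv 1 (g 2) - pderiv 2 (g 1),
    pderiv 1 (g 3) - pderiv 3 (g 1), pderiv 2 (g 3) - pderiv 3 (g 2)]

/-- Homotopy from position two to position three. -/
def hmt2 (g : Fin 6 → SPol) : Fin 4 → SPol :=
  ![pderiv 0 (g 3) - pderiv 1 (g 1) + pderiv 2 (g 0),
    pderiv 0 (g 4) - pderiv 1 (g 2) + pderiv 3 (g 0),
    pderiv 0 (g 5) - pderiv 2 (g 2) + pderiv 3 (g 1),
    pderiv 1 (g 5) - pderiv 2 (g 4) + pderiv 3 (g 3)]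

/-- Homotopy from position three to position four. -/
def hmt3 (g : Fin 4 → SPol) : Fin 1 → SPol :=
  ![pderiv 0 (g 3) - pderiv 1 (g 2) + pderiv 2 (g 1) - pderiv 3 (g 0)]

theorem hmt1_spec {d : ℕ} (g : Fin 4 → SPol) (hg : ∀ i, (g i).IsHomogeneous d)
    (hc : g ᵥ* kz1 = 0) : hmt1 g ᵥ* kz2 = fun i => ((d + 1 : ℕ) : SPol) * g i := by
  have e0 := congrFun hc 0
  simp [kz1, vecMul, dotProduct, Fin.sum_univ_four, Matrix.vecHead, Matrix.vecTail] at e0
  funext i
  have eu := euler (hg i)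
  fin_cases i
  all_goals
    simp [hmt1, kz2, vecMul, dotProduct, Fin.sum_univ_six, Matrix.vecHead, Matrix.vecTail] at eu ⊢
  · have := congrArg (pderiv (R := ℂ) (0 : Fin 4)) e0
    simp [pderiv_mul, pderiv_X] at this
    linear_combination eu - this
  · have := congrArg (pderiv (R := ℂ) (1 : Fin 4)) e0
    simp [pderiv_mul, pderiv_X] at this
    linear_combination eu - this
  · have := congrArg (pderiv (R := ℂ) (2 : Fin 4)) e0
    simp [pderiv_mul, pderiv_X] at this
    linear_combination eu - this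
  · have := congrArg (pderiv (R := ℂ) (3 : Fin 4)) e0
    simp [pderiv_mul, pderiv_X] at this
    linear_combination eu - this

theorem hmt2_spec {d : ℕ} (g : Fin 6 → SPol) (hg : ∀ i, (g i).IsHomogeneous d)
    (hc : g ᵥ* kz2 = 0) : hmt2 g ᵥ* kz3 = fun i => ((d + 2 : ℕ) : SPol) * g i := by
  have e0 := congrFun hc 0
  have e1 := congrFun hc 1
  have e2 := congrFun hc 2
  have e3 := congrFun hc 3
  simp [kz2, vecMul, dotProduct, Fin.sum_univ_six, Matrix.vecHead, Matrix.vecTail] at e0 e1 e2 e3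
  funext i
  have eu := euler (hg i)
  fin_cases i
  all_goals
    simp [hmt2, kz3, vecMul, dotProduct, Fin.sum_univ_four, Matrix.vecHead, Matrix.vecTail] at eu ⊢
  · have a := congrArg (pderiv (R := ℂ) (1 : Fin 4)) e0
    have b := congrArg (pderiv (R := ℂ) (0 : Fin 4)) e1
    simp [pderiv_mul, pderiv_X] at a b
    linear_combination a - b + eu
  · have a := congrArg (pderiv (R := ℂ) (2 : Fin 4)) e0
    have b := congrArg (pderiv (R := ℂ) (0 : Fin 4)) e2
    simp [pderiv_mul, pderiv_X] at a b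
    linear_combination a - b + eu
  · have a := congrArg (pderiv (R := ℂ) (3 : Fin 4)) e0
    have b := congrArg (pderiv (R := ℂ) (0 : Fin 4)) e3
    simp [pderiv_mul, pderiv_X] at a b
    linear_combination a - b + eu
  · have a := congrArg (pderiv (R := ℂ) (2 : Fin 4)) e1
    have b := congrArg (pderiv (R := ℂ) (1 : Fin 4)) e2
    simp [pderiv_mul, pderiv_X] at a b
    linear_combination a - b + eu
  · have a := congrArg (pderiv (R := ℂ) (3 : Fin 4)) e1
    have b := congrArg (pderiv (R := ℂ) (1 : Fin 4)) e3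
    simp [pderiv_mul, pderiv_X] at a b
    linear_combination a - b + eu
  · have a := congrArg (pderiv (R := ℂ) (3 : Fin 4)) e2
    have b := congrArg (pderiv (R := ℂ) (2 : Fin 4)) e3
    simp [pderiv_mul, pderiv_X] at a b
    linear_combination a - b + eu

theorem hmt3_spec {d : ℕ} (g : Fin 4 → SPol) (hg : ∀ i, (g i).IsHomogeneous d)
    (hc : g ᵥ* kz3 = 0) : hmt3 g ᵥ* kz4 = fun i => ((d + 3 : ℕ) : SPol) * g i := by
  have e0 := congrFun hc 0
  have e1 := congrFun hc 1
  have e2 := congrFun hc 2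
  have e3 := congrFun hc 3
  have e4 := congrFun hc 4
  have e5 := congrFun hc 5
  simp [kz3, vecMul, dotProduct, Fin.sum_univ_four, Matrix.vecHead, Matrix.vecTail]
    at e0 e1 e2 e3 e4 e5
  funext i
  have eu := euler (hg i)
  fin_cases i
  all_goals
    simp [hmt3, kz4, vecMul, dotProduct, Matrix.vecHead, Matrix.vecTail] at eu ⊢
  · have a := congrArg (pderiv (R := ℂ) (0 : Fin 4)) e3
    have b := congrArg (pderiv (R := ℂ) (1 : Fin 4)) e1
    have c := congrArg (pderiv (R := ℂ) (2 : Fin 4)) e0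
    simp [pderiv_mul, pderiv_X] at a b c
    linear_combination eu - a + b - c
  · have a := congrArg (pderiv (R := ℂ) (0 : Fin 4)) e4
    have b := congrArg (pderiv (R := ℂ) (1 : Fin 4)) e2
    have c := congrArg (pderiv (R := ℂ) (3 : Fin 4)) e0
    simp [pderiv_mul, pderiv_X] at a b c
    linear_combination eu - a + b - c
  · have a := congrArg (pderiv (R := ℂ) (0 : Fin 4)) e5
    have b := congrArg (pderiv (R := ℂ) (2 : Fin 4)) e2
    have c := congrArg (pderiv (R := ℂ) (3 : Fin 4)) e1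
    simp [pderiv_mul, pderiv_X] at a b c
    linear_combination eu - a + b - c
  · have a := congrArg (pderiv (R := ℂ) (1 : Fin 4)) e5
    have b := congrArg (pderiv (R := ℂ) (2 : Fin 4)) e4
    have c := congrArg (pderiv (R := ℂ) (3 : Fin 4)) e3
    simp [pderiv_mul, pderiv_X] at a b c
    linear_combination eu - a + b - c

theorem kexact_of_homotopy {p q r : ℕ} {k' : Matrix (Fin p) (Fin q) SPol}
    {k : Matrix (Fin q) (Fin r) SPol} (j : ℕ) (hj : j ≠ 0) (H : (Fin q → SPol) → Fin p → SPol)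
    (hH0 : ∀ g : Fin q → SPol, (∀ i, (g i).IsHomogeneous 0) → H g = 0)
    (hH : ∀ (e : ℕ) (g : Fin q → SPol), (∀ i, (g i).IsHomogeneous (e + 1)) →
      ∀ i, (H g i).IsHomogeneous e)
    (spec : ∀ (d : ℕ) (g : Fin q → SPol), (∀ i, (g i).IsHomogeneous d) → g ᵥ* k = 0 →
      H g ᵥ* k' = fun i => ((d + j : ℕ) : SPol) * g i) :
    KExact k' k := by
  intro d g hg hc
  have h := spec d g hg hc
  refine ⟨fun hd => ?_, fun e he => ?_⟩
  · subst hd
    rw [hH0 g hg, zero_vecMul] at h
    funext i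
    have := natCast_mul_cancel (n := 0 + j) (by omega) (congrFun h i).symm
    simpa using this
  · subst he
    refine ⟨(C ((e + 1 + j : ℕ) : ℂ)⁻¹ : SPol) • H g, fun i => ?_, ?_⟩
    · simp only [Pi.smul_apply, smul_eq_mul]
      exact isHom_scale (hH e g hg i) _
    · rw [smul_vecMul, h]
      funext i
      simp only [Pi.smul_apply, smul_eq_mul]
      exact (natCast_mul_cancel (n := e + 1 + j) (by omega) rfl).symm

theorem kexact1 : KExact kz2 kz1 := by
  refine kexact_of_homotopy 1 one_ne_zero hmt1 (fun g hg => ?_) (fun e g hg i => ?_)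
    (fun d g hg hc => hmt1_spec g hg hc)
  · funext i
    fin_cases i <;> simp [hmt1, pderiv_of_deg_zero (hg _)]
  · fin_cases i <;> simp [hmt1] <;> exact (isHom_pderiv (hg _) _).sub (isHom_pderiv (hg _) _)

theorem kexact2 : KExact kz3 kz2 := by
  refine kexact_of_homotopy 2 two_ne_zero hmt2 (fun g hg => ?_) (fun e g hg i => ?_)
    (fun d g hg hc => hmt2_spec g hg hc)
  · funext i
    fin_cases i <;> simp [hmt2, pderiv_of_deg_zero (hg _)]
  · fin_cases i <;> simp [hmt2, Matrix.vecHead, Matrix.vecTail] <;>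
      exact ((isHom_pderiv (hg _) _).sub (isHom_pderiv (hg _) _)).add (isHom_pderiv (hg _) _)

theorem kexact3 : KExact kz4 kz3 := by
  refine kexact_of_homotopy 3 three_ne_zero hmt3 (fun g hg => ?_) (fun e g hg i => ?_)
    (fun d g hg hc => hmt3_spec g hg hc)
  · funext i
    fin_cases i
    simp [hmt3, pderiv_of_deg_zero (hg _)]
  · fin_cases i
    simp [hmt3]
    exact (((isHom_pderiv (hg _) _).sub (isHom_pderiv (hg _) _)).add (isHom_pderiv (hg _) _)).sub
      (isHom_pderiv (hg _) _)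

theorem kexact4 (g : Fin 1 → SPol) (hc : g ᵥ* kz4 = 0) : g = 0 := by
  have e := congrFun hc 3
  simp [kz4, vecMul, dotProduct, Matrix.vecHead, Matrix.vecTail] at e
  funext i
  fin_cases i
  simpa using e

theorem kz_surj {e : ℕ} {g : SPol} (hg : g.IsHomogeneous (e + 1)) :
    ∃ h : Fin 4 → SPol, (∀ i, (h i).IsHomogeneous e) ∧ (h ᵥ* kz1) 0 = g := by
  refine ⟨fun i => C ((e + 1 : ℕ) : ℂ)⁻¹ * pderiv i g, fun i => isHom_scale (isHom_pderiv hg i) _, ?_⟩
  have eu := euler hg
  have := natCast_mul_cancel (n := e + 1) (by omega) eu.symm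
  conv_rhs => rw [this]
  simp [kz1, vecMul, dotProduct, Fin.sum_univ_four, Matrix.vecHead, Matrix.vecTail]
  ring

end Vale.Agent.P176
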