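import Vale.Agent.P176.Sym
import Vale.Agent.P176.Koszul
import Mathlib.LinearAlgebra.LinearIndependent.Defs
import Mathlib.Data.Matrix.Composition
import Mathlib.LinearAlgebra.Finsupp.LinearCombination

/-! Exactness of the filtered Chevalley-Eilenberg complex of a finite-dimensional
representation sitting inside `Pol`. -/

noncomputable section

namespace Vale.Agent.P176

open Matrix

theorem symb_mul_sf {a b : ℕ} {x y : Op} (hx : x ∈ sf (a : ℤ)) (hy : y ∈ sf (b : ℤ)) :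
    symb (a + b) (x * y) = symb a x * symb b y := by
  obtain ⟨u, hu, rfl⟩ := mem_sf.mp hx
  obtain ⟨v, hv, rfl⟩ := mem_sf.mp hy
  exact symb_mul hu hv

theorem mem_sf_of_symb {d : ℕ} {x : Op} (hx : x ∈ sf (d : ℤ)) (h : symb d x = 0) :
    x ∈ sf ((d : ℤ) - 1) := by
  obtain ⟨u, hu, rfl⟩ := mem_sf.mp hx
  exact mem_sf.mpr ⟨u, mem_of_symb_eq_zero hu h, rfl⟩

theorem algebraMap_mem_sf (c : ℂ) {d : ℤ} (h : 0 ≤ d) : algebraMap ℂ Op c ∈ sf d := by
  rw [Algebra.algebraMap_eq_smul_one]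
  exact Submodule.smul_mem _ c (one_mem_sf h)

theorem symb_one_of_mem_zero {x : Op} (hx : x ∈ sf 0) : symb 1 x = 0 := by
  obtain ⟨u, hu, rfl⟩ := mem_sf.mp hx
  exact symb_eq_zero_of_mem (d := 1) (by simpa using hu)

theorem GlRel.add {R : Type*} [Ring R] {u w : Fin 4 → R} (hu : GlRel u) (hw : GlRel w)
    (hc : ∀ a b, u a * w b = w b * u a) : GlRel fun a => u a + w a := by
  constructor <;>
    simp only [add_mul, mul_add, hu.r01, hu.r02, hu.r03, hu.r12, hu.r13, hu.r23, hw.r01, hw.r02,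
      hw.r03, hw.r12, hw.r13, hw.r23, hc] <;>
    abel

/-- A finite-dimensional representation inside `Pol` with a basis. -/
structure Rep where
  /-- the index type of the basis is `Fin dim` -/
  dim : ℕ
  /-- the basis -/
  vec : Fin dim → Pol
  /-- the representation matrices -/
  mat : Fin 4 → Matrix (Fin dim) (Fin dim) ℂ
  op_vec : ∀ a b, op a (vec b) = ∑ c, mat a b c • vec c
  indep : LinearIndependent ℂ vec

namespace Rep

variable (ρ : Rep)

theorem mat_inj {A B : Matrix (Fin ρ.dim) (Fin ρ.dim) ℂ}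
    (h : ∀ b, ∑ c, A b c • ρ.vec c = ∑ c, B b c • ρ.vec c) : A = B := by
  ext b c
  have := Fintype.linearIndependent_iff.mp ρ.indep (fun c => A b c - B b c) (by
    simp only [sub_smul, Finset.sum_sub_distrib, h b, sub_self]) c
  exact sub_eq_zero.mp this

theorem op_op_vec (a a' : Fin 4) (b : Fin ρ.dim) :
    op a (op a' (ρ.vec b)) = ∑ c, (ρ.mat a' * ρ.mat a) b c • ρ.vec c := by
  rw [ρ.op_vec, map_sum]
  simp only [map_smul, ρ.op_vec, Finset.smul_sum, smul_smul, mul_apply, Finset.sum_smul]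
  exact Finset.sum_comm

theorem mat_rel : GlRel fun a => -ρ.mat a := by
  have key : ∀ (a a' : Fin 4) (E : Matrix (Fin ρ.dim) (Fin ρ.dim) ℂ),
      (∀ b, op a (op a' (ρ.vec b)) = op a' (op a (ρ.vec b)) + ∑ c, E b c • ρ.vec c) →
      ρ.mat a' * ρ.mat a = ρ.mat a * ρ.mat a' + E := fun a a' E h => ρ.mat_inj fun b => by
    rw [← ρ.op_op_vec, h b, ρ.op_op_vec]
    simp [add_smul, Finset.sum_add_distrib]
  have ap : ∀ {x y : Op}, x = y → ∀ f, x f = y f := fun h f => by rw [h]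
  constructor
  · have h := key 0 1 0 fun b => by
      rw [← Module.End.mul_apply, op_rel.r01]
      simp [Module.End.mul_apply]
    simp [h]
  · have h := key 0 2 (ρ.mat 2) fun b => by
      rw [← Module.End.mul_apply, op_rel.r02]
      simp [ρ.op_vec]
    simp only [neg_mul_neg, h]; abel
  · have h := key 0 3 (-ρ.mat 3) fun b => by
      rw [← Module.End.mul_apply, op_rel.r03]
      simp [ρ.op_vec, sub_eq_add_neg]
    simp only [neg_mul_neg, h]; abel
  · have h := key 1 2 (-ρ.mat 2) fun b => by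
      rw [← Module.End.mul_apply, op_rel.r12]
      simp [ρ.op_vec, sub_eq_add_neg]
    simp only [neg_mul_neg, h]; abel
  · have h := key 1 3 (ρ.mat 3) fun b => by
      rw [← Module.End.mul_apply, op_rel.r13]
      simp [ρ.op_vec]
    simp only [neg_mul_neg, h]; abel
  · have h := key 2 3 (ρ.mat 0 - ρ.mat 1) fun b => by
      rw [← Module.End.mul_apply, op_rel.r23]
      simp [ρ.op_vec, sub_smul, Finset.sum_sub_distrib, add_sub_assoc]
    simp only [neg_mul_neg, h]; abel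

/-- The matrices `E_a ⊗ 1 - 1 ⊗ ρ(x_a)` for right multiplication. -/
def z (a : Fin 4) : Matrix (Fin ρ.dim) (Fin ρ.dim) Op :=
  scalar (Fin ρ.dim) (op a) + (-ρ.mat a).map (algebraMap ℂ Op)

theorem z_rel : GlRel ρ.z := by
  have h1 : GlRel fun a => scalar (Fin ρ.dim) (op a) := by
    have hr := op_rel
    constructor <;> simp only [← map_mul, ← map_add, ← map_sub, hr.r01, hr.r02, hr.r03, hr.r12,
      hr.r13, hr.r23]
  have h2 : GlRel fun a => (-ρ.mat a).map (algebraMap ℂ Op) := by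
    have hr := ρ.mat_rel
    let φ := (algebraMap ℂ Op).mapMatrix (m := Fin ρ.dim)
    change GlRel fun a => φ (-ρ.mat a)
    constructor <;> simp only [← map_mul, ← map_add, ← map_sub, hr.r01, hr.r02, hr.r03, hr.r12,
      hr.r13, hr.r23]
  refine h1.add h2 fun a b => ?_
  ext1 i j
  simp only [scalar_apply, diagonal_mul, mul_diagonal, map_apply]
  exact (Algebra.commutes _ _).symm

/-- Flattening of a block matrix. -/
def flat {p q : ℕ} (K : Matrix (Fin p) (Fin q) (Matrix (Fin ρ.dim) (Fin ρ.dim) Op)) :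
    Matrix (Fin p × Fin ρ.dim) (Fin q × Fin ρ.dim) Op :=
  fun i j => K i.1 j.1 i.2 j.2

theorem flat_mul {p q r : ℕ} (A : Matrix (Fin p) (Fin q) (Matrix (Fin ρ.dim) (Fin ρ.dim) Op))
    (B : Matrix (Fin q) (Fin r) (Matrix (Fin ρ.dim) (Fin ρ.dim) Op)) :
    ρ.flat A * ρ.flat B = ρ.flat (A * B) := by
  ext i j
  simp [flat, mul_apply, Fintype.sum_prod_type, Matrix.sum_apply]

/-- The first differential. -/
def k1 : Matrix (Fin 4 × Fin ρ.dim) (Fin 1 × Fin ρ.dim) Op := ρ.flat (ce1 ρ.z)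

/-- The second differential. -/
def k2 : Matrix (Fin 6 × Fin ρ.dim) (Fin 4 × Fin ρ.dim) Op := ρ.flat (ce2 ρ.z)

/-- The third differential. -/
def k3 : Matrix (Fin 4 × Fin ρ.dim) (Fin 6 × Fin ρ.dim) Op := ρ.flat (ce3 ρ.z)

/-- The fourth differential. -/
def k4 : Matrix (Fin 1 × Fin ρ.dim) (Fin 4 × Fin ρ.dim) Op := ρ.flat (ce4 ρ.z)

theorem k2_k1 : ρ.k2 * ρ.k1 = 0 := by
  rw [k2, k1, flat_mul, ρ.z_rel.ce2_ce1]; rfl

theorem k3_k2 : ρ.k3 * ρ.k2 = 0 := by
  rw [k3, k2, flat_mul, ρ.z_rel.ce3_ce2]; rfl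

theorem k4_k3 : ρ.k4 * ρ.k3 = 0 := by
  rw [k4, k3, flat_mul, ρ.z_rel.ce4_ce3]; rfl

/-- The entries of a block have degree one with the given symbol on the diagonal. -/
def Good (M : Matrix (Fin ρ.dim) (Fin ρ.dim) Op) (p : SPol) : Prop :=
  ∀ b c, M b c ∈ sf 1 ∧ symb 1 (M b c) = if b = c then p else 0

theorem good_z (a : Fin 4) : ρ.Good (ρ.z a) (MvPolynomial.X a) := by
  intro b c
  have hs : algebraMap ℂ Op (-ρ.mat a b c) ∈ sf 0 := algebraMap_mem_sf _ le_rfl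
  have e : ρ.z a b c = (if b = c then op a else 0) + algebraMap ℂ Op (-ρ.mat a b c) := by
    simp [z, scalar_apply, diagonal_apply]
  refine ⟨?_, ?_⟩
  · rw [e]
    refine add_mem ?_ (sf_mono zero_le_one hs)
    split_ifs
    exacts [op_mem_sf a le_rfl, zero_mem _]
  · rw [e, map_add, symb_one_of_mem_zero hs, add_zero]
    split_ifs
    · exact symb_gen a
    · exact map_zero _

theorem good_zero : ρ.Good 0 0 := fun b c => ⟨by simp, by simp⟩

theorem good_one : ρ.Good 1 0 := fun b c => by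
  have h : (1 : Matrix (Fin ρ.dim) (Fin ρ.dim) Op) b c ∈ sf 0 := by
    rw [one_apply]
    split_ifs
    exacts [one_mem_sf le_rfl, zero_mem _]
  exact ⟨sf_mono zero_le_one h, by simp [symb_one_of_mem_zero h]⟩

theorem Good.neg {M p} (h : ρ.Good M p) : ρ.Good (-M) (-p) := fun b c =>
  ⟨neg_mem (h b c).1, by rw [Matrix.neg_apply, map_neg, (h b c).2]; split_ifs <;> simp⟩

theorem Good.add {M N p q} (h : ρ.Good M p) (h' : ρ.Good N q) : ρ.Good (M + N) (p + q) :=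
  fun b c => ⟨add_mem (h b c).1 (h' b c).1,
    by rw [Matrix.add_apply, map_add, (h b c).2, (h' b c).2]; split_ifs <;> simp⟩

theorem Good.sub {M N p q} (h : ρ.Good M p) (h' : ρ.Good N q) : ρ.Good (M - N) (p - q) := by
  rw [sub_eq_add_neg, sub_eq_add_neg]; exact h.add ρ (h'.neg ρ)

/-- A block matrix of degree one with prescribed symbols. -/
def GoodMat {p q : ℕ} (K : Matrix (Fin p × Fin ρ.dim) (Fin q × Fin ρ.dim) Op)
    (k : Matrix (Fin p) (Fin q) SPol) : Prop :=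
  ∀ i j, K i j ∈ sf 1 ∧ symb 1 (K i j) = if i.2 = j.2 then k i.1 j.1 else 0

theorem goodMat_flat {p q : ℕ} {K : Matrix (Fin p) (Fin q) (Matrix (Fin ρ.dim) (Fin ρ.dim) Op)}
    {k : Matrix (Fin p) (Fin q) SPol} (h : ∀ i j, ρ.Good (K i j) (k i j)) :
    ρ.GoodMat (ρ.flat K) k :=
  fun i j => h i.1 j.1 i.2 j.2

theorem good_k1 : ρ.GoodMat ρ.k1 kz1 := ρ.goodMat_flat fun i j => by
  fin_cases i <;> fin_cases j <;> exact ρ.good_z _

theorem good_k2 : ρ.GoodMat ρ.k2 kz2 := ρ.goodMat_flat fun i j => by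
  have hz := ρ.good_z
  have h0 := ρ.good_zero
  have hp : ∀ a, ρ.Good (ρ.z a + 1) (MvPolynomial.X a) := fun a => by
    simpa using (hz a).add ρ ρ.good_one
  have hm : ∀ a, ρ.Good (ρ.z a - 1) (MvPolynomial.X a) := fun a => by
    simpa using (hz a).sub ρ ρ.good_one
  have hn : ρ.Good (-1) 0 := by simpa using ρ.good_one.neg ρ
  fin_cases i <;> fin_cases j <;>
    simp [ce2, kz2, hz, h0, hp, hm, hn, ρ.good_one, fun a => (hz a).neg ρ]

theorem good_k3 : ρ.GoodMat ρ.k3 kz3 := ρ.goodMat_flat fun i j => by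
  have hz := ρ.good_z
  have h0 := ρ.good_zero
  have hp : ∀ a, ρ.Good (ρ.z a + 1) (MvPolynomial.X a) := fun a => by
    simpa using (hz a).add ρ ρ.good_one
  have hm : ∀ a, ρ.Good (ρ.z a - 1) (MvPolynomial.X a) := fun a => by
    simpa using (hz a).sub ρ ρ.good_one
  have hnp : ∀ a, ρ.Good (-ρ.z a + 1) (-MvPolynomial.X a) := fun a => by
    simpa using ((hz a).neg ρ).add ρ ρ.good_one
  have hnm : ∀ a, ρ.Good (-ρ.z a - 1) (-MvPolynomial.X a) := fun a => by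
    simpa using ((hz a).neg ρ).sub ρ ρ.good_one
  have hn : ρ.Good (-1) 0 := by simpa using ρ.good_one.neg ρ
  fin_cases i <;> fin_cases j <;>
    simp [ce3, kz3, hz, h0, hp, hm, hnp, hnm, hn, ρ.good_one, fun a => (hz a).neg ρ]

theorem good_k4 : ρ.GoodMat ρ.k4 kz4 := ρ.goodMat_flat fun i j => by
  have hz := ρ.good_z
  fin_cases i <;> fin_cases j <;>
    simp [ce4, kz4, hz, fun a => (hz a).neg ρ]

theorem vecMul_mem {p q : ℕ} {K : Matrix (Fin p × Fin ρ.dim) (Fin q × Fin ρ.dim) Op}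
    {k : Matrix (Fin p) (Fin q) SPol} (hK : ρ.GoodMat K k) {d : ℤ}
    {x : Fin p × Fin ρ.dim → Op} (hx : ∀ i, x i ∈ sf d) (j : Fin q × Fin ρ.dim) :
    (x ᵥ* K) j ∈ sf (d + 1) :=
  Submodule.sum_mem _ fun i _ => mul_mem_sf (hx i) (hK i j).1

theorem symb_vecMul {p q : ℕ} {K : Matrix (Fin p × Fin ρ.dim) (Fin q × Fin ρ.dim) Op}
    {k : Matrix (Fin p) (Fin q) SPol} (hK : ρ.GoodMat K k) {d : ℕ}
    {x : Fin p × Fin ρ.dim → Op} (hx : ∀ i, x i ∈ sf (d : ℤ)) (j : Fin q × Fin ρ.dim) :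
    symb (d + 1) ((x ᵥ* K) j) = ((fun i => symb d (x (i, j.2))) ᵥ* k) j.1 := by
  simp only [vecMul, dotProduct, map_sum]
  rw [Finset.sum_congr rfl fun i _ => symb_mul_sf (hx i) (by simpa using (hK i j).1),
    Fintype.sum_prod_type]
  refine Finset.sum_congr rfl fun i _ => ?_
  simp [(hK (i, _) j).2]

/-- Lifting argument common to all positions. -/
theorem filtered_exact {p q : ℕ} {K : Matrix (Fin p × Fin ρ.dim) (Fin q × Fin ρ.dim) Op}
    {k : Matrix (Fin p) (Fin q) SPol} (hK : ρ.GoodMat K k)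
    (Cyc : (Fin q × Fin ρ.dim → Op) → Prop)
    (hsub : ∀ x y, Cyc x → Cyc (x - y ᵥ* K))
    (hzero : ∀ x : Fin q × Fin ρ.dim → Op, (∀ i, x i ∈ sf 0) → Cyc x → x = 0)
    (hstep : ∀ (e : ℕ) (x : Fin q × Fin ρ.dim → Op), (∀ i, x i ∈ sf ((e + 1 : ℕ) : ℤ)) → Cyc x →
      ∀ b, ∃ h : Fin p → SPol, (∀ i, (h i).IsHomogeneous e) ∧
        h ᵥ* k = fun i => symb (e + 1) (x (i, b)))
    (d : ℤ) (x : Fin q × Fin ρ.dim → Op) (hx : ∀ i, x i ∈ sf d) (hc : Cyc x) :
    ∃ y : Fin p × Fin ρ.dim → Op, (∀ i, y i ∈ sf (d - 1)) ∧ y ᵥ* K = x := by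
  by_cases hd : d ≤ 0
  · refine ⟨0, fun i => zero_mem _, ?_⟩
    rw [hzero x (fun i => sf_mono hd (hx i)) hc, zero_vecMul]
  obtain ⟨e, he⟩ := Int.eq_ofNat_of_zero_le (show 0 ≤ d - 1 by omega)
  obtain rfl : d = ((e + 1 : ℕ) : ℤ) := by push_cast; omega
  clear hd he
  induction e using Nat.strong_induction_on generalizing x with
  | _ e ih =>
    choose h hh hhk using hstep e x hx hc
    let y : Fin p × Fin ρ.dim → Op := fun i => (lift (h i.2 i.1)).1
    have hy : ∀ i, y i ∈ sf (e : ℤ) := fun i => mem_sf.mpr ⟨_, lift_mem (hh i.2 i.1), rfl⟩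
    have hsy : ∀ b, (fun i => symb e (y (i, b))) = h b :=
      fun b => funext fun i => symb_lift (hh b i)
    have hmem : ∀ j, (x - y ᵥ* K) j ∈ sf ((e + 1 : ℕ) : ℤ) := fun j =>
      sub_mem (hx j) (by simpa using vecMul_mem ρ hK hy j)
    have hlow : ∀ j, (x - y ᵥ* K) j ∈ sf (e : ℤ) := fun j => by
      have := mem_sf_of_symb (hmem j) (by
        rw [Pi.sub_apply, map_sub, symb_vecMul ρ hK hy j, hsy j.2, hhk j.2, sub_self])
      simpa using this
    obtain ⟨y', hy', hy'K⟩ : ∃ y', (∀ i, y' i ∈ sf ((e : ℤ) - 1)) ∧ y' ᵥ* K = x - y ᵥ* K := by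
      cases e with
      | zero =>
        refine ⟨0, fun i => zero_mem _, ?_⟩
        rw [hzero _ (by simpa using hlow) (hsub _ _ hc), zero_vecMul]
      | succ e' =>
        obtain ⟨y', h1, h2⟩ := ih e' (Nat.lt_succ_self _) _ (hsub _ _ hc) hlow
        exact ⟨y', h1, h2⟩
    refine ⟨y + y', fun i => ?_, ?_⟩
    · refine add_mem (sf_mono (by push_cast; omega) (hy i)) (sf_mono (by push_cast; omega) (hy' i))
    · rw [add_vecMul, hy'K]; abel

theorem exact_of_kexact {p q r : ℕ} {K' : Matrix (Fin p × Fin ρ.dim) (Fin q × Fin ρ.dim) Op}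
    {K : Matrix (Fin q × Fin ρ.dim) (Fin r × Fin ρ.dim) Op}
    {k' : Matrix (Fin p) (Fin q) SPol} {k : Matrix (Fin q) (Fin r) SPol}
    (hK' : ρ.GoodMat K' k') (hK : ρ.GoodMat K k) (hKK : K' * K = 0) (hk : KExact k' k)
    (d : ℤ) (x : Fin q × Fin ρ.dim → Op) (hx : ∀ i, x i ∈ sf d) (hc : x ᵥ* K = 0) :
    ∃ y : Fin p × Fin ρ.dim → Op, (∀ i, y i ∈ sf (d - 1)) ∧ y ᵥ* K' = x := by
  have hcyc : ∀ (e : ℕ) (x : Fin q × Fin ρ.dim → Op), (∀ i, x i ∈ sf (e : ℤ)) → x ᵥ* K = 0 →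
      ∀ b, (fun i => symb e (x (i, b))) ᵥ* k = 0 := fun e x hx h b => funext fun j => by
    rw [← symb_vecMul ρ hK hx (j, b), h, Pi.zero_apply, map_zero, Pi.zero_apply]
  refine ρ.filtered_exact hK' (fun x => x ᵥ* K = 0) (fun x y h => ?_) (fun x hx h => ?_)
    (fun e x hx h b => ?_) d x hx hc
  · rw [sub_vecMul, vecMul_vecMul, hKK, vecMul_zero, h, sub_zero]
  · funext i
    have := (hk 0 _ (fun i' => symb_homogeneous 0 _) (hcyc 0 x (by simpa using hx) h i.2)).1 rfl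
    simpa [sf_neg] using mem_sf_of_symb (d := 0) (by simpa using hx i) (congrFun this i.1)
  · exact (hk (e + 1) _ (fun i' => symb_homogeneous _ _) (hcyc _ x hx h b)).2 e rfl

theorem exact1 (d : ℤ) (x : Fin 4 × Fin ρ.dim → Op) (hx : ∀ i, x i ∈ sf d) (hc : x ᵥ* ρ.k1 = 0) :
    ∃ y : Fin 6 × Fin ρ.dim → Op, (∀ i, y i ∈ sf (d - 1)) ∧ y ᵥ* ρ.k2 = x :=
  ρ.exact_of_kexact ρ.good_k2 ρ.good_k1 ρ.k2_k1 kexact1 d x hx hc

theorem exact2 (d : ℤ) (x : Fin 6 × Fin ρ.dim → Op) (hx : ∀ i, x i ∈ sf d) (hc : x ᵥ* ρ.k2 = 0) :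
    ∃ y : Fin 4 × Fin ρ.dim → Op, (∀ i, y i ∈ sf (d - 1)) ∧ y ᵥ* ρ.k3 = x :=
  ρ.exact_of_kexact ρ.good_k3 ρ.good_k2 ρ.k3_k2 kexact2 d x hx hc

theorem exact3 (d : ℤ) (x : Fin 4 × Fin ρ.dim → Op) (hx : ∀ i, x i ∈ sf d) (hc : x ᵥ* ρ.k3 = 0) :
    ∃ y : Fin 1 × Fin ρ.dim → Op, (∀ i, y i ∈ sf (d - 1)) ∧ y ᵥ* ρ.k4 = x :=
  ρ.exact_of_kexact ρ.good_k4 ρ.good_k3 ρ.k4_k3 kexact3 d x hx hc

theorem exact4 (d : ℤ) (x : Fin 1 × Fin ρ.dim → Op) (hx : ∀ i, x i ∈ sf d) (hc : x ᵥ* ρ.k4 = 0) :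
    x = 0 := by
  by_cases hd : d < 0
  · funext i
    simpa [sf_neg hd] using hx i
  obtain ⟨e, rfl⟩ := Int.eq_ofNat_of_zero_le (not_lt.mp hd)
  clear hd
  have hs : ∀ (e : ℕ), (∀ i, x i ∈ sf (e : ℤ)) → ∀ i, x i ∈ sf ((e : ℤ) - 1) := by
    intro e he i
    refine mem_sf_of_symb (he i) ?_
    have := kexact4 (fun a => symb e (x (a, i.2))) (funext fun j => by
      rw [← symb_vecMul ρ ρ.good_k4 he (j, i.2), hc, Pi.zero_apply, map_zero, Pi.zero_apply])
    exact congrFun this i.1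
  funext i
  induction e with
  | zero => simpa [sf_neg] using hs 0 hx i
  | succ e ih => exact ih fun i => by simpa using hs (e + 1) hx i

/-- Augmentation `∑ u_b ⊗ v_b ↦ ∑ u_b v_b`. -/
def aug (x : Fin 1 × Fin ρ.dim → Op) : Pol := ∑ b, x (0, b) (ρ.vec b)

theorem aug_sub (x y : Fin 1 × Fin ρ.dim → Op) : ρ.aug (x - y) = ρ.aug x - ρ.aug y := by
  simp [aug, Finset.sum_sub_distrib]

theorem aug_k1 (y : Fin 4 × Fin ρ.dim → Op) : ρ.aug (y ᵥ* ρ.k1) = 0 := by
  simp only [aug, vecMul, dotProduct, LinearMap.sum_apply, Module.End.mul_apply]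
  rw [Finset.sum_comm]
  refine Finset.sum_eq_zero fun i _ => ?_
  rw [← map_sum]
  have : ∑ c, ρ.k1 i (0, c) (ρ.vec c) = 0 := by
    obtain ⟨a, b⟩ := i
    have ha : ce1 ρ.z a 0 = ρ.z a := by fin_cases a <;> rfl
    simp only [k1, flat, ha]
    have e : ∀ x, (if b = x then op a else 0) (ρ.vec x) = if b = x then op a (ρ.vec x) else 0 :=
      fun x => by split_ifs <;> rfl
    simp [z, scalar_apply, diagonal_apply, Matrix.map_apply, Finset.sum_add_distrib,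
      e, ρ.op_vec, Module.algebraMap_end_apply]
  rw [this, map_zero]

theorem exact0 (d : ℤ) (x : Fin 1 × Fin ρ.dim → Op) (hx : ∀ i, x i ∈ sf d) (hc : ρ.aug x = 0) :
    ∃ y : Fin 4 × Fin ρ.dim → Op, (∀ i, y i ∈ sf (d - 1)) ∧ y ᵥ* ρ.k1 = x := by
  refine ρ.filtered_exact ρ.good_k1 (fun x => ρ.aug x = 0) (fun x y h => ?_) (fun x hx h => ?_)
    (fun e x hx h b => ?_) d x hx hc
  · rw [aug_sub, h, aug_k1, sub_zero]
  · have hscal : ∀ i, ∃ c : ℂ, x i = c • (1 : Op) := fun i => by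
      obtain ⟨u, hu, hux⟩ := mem_sf.mp (hx i)
      have hu' : u ∈ Submodule.span ℂ {(1 : Pair)} := by
        refine Submodule.span_mono ?_ hu
        rintro w ⟨l, hl, rfl⟩
        simp only [Set.mem_ofPred_eq] at hl
        obtain rfl : l = [] := List.length_eq_zero_iff.mp (by omega)
        rfl
      obtain ⟨c, rfl⟩ := Submodule.mem_span_singleton.mp hu'
      exact ⟨c, hux.symm⟩
    choose c hc' using hscal
    have h0 := Fintype.linearIndependent_iff.mp ρ.indep (fun b => c (0, b)) (by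
      simpa [aug, hc'] using h)
    funext i
    obtain ⟨a, b⟩ := i
    obtain rfl : a = 0 := Subsingleton.elim _ _
    rw [hc' (0, b), h0 b, zero_smul]
    rfl
  · obtain ⟨g, hg, hgk⟩ := kz_surj (symb_homogeneous (e + 1) (x (0, b)))
    refine ⟨g, hg, funext fun i => ?_⟩
    obtain rfl : i = 0 := Subsingleton.elim _ _
    exact hgk

end Rep

end Vale.Agent.P176
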