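import Vale.Agent.P176.Modules
import Mathlib.Tactic.FieldSimp

/-! The projective complex and its homology. -/

noncomputable section

namespace Vale.Agent.P176

open Matrix

/-- A lift of a matrix of operators to pairs. -/
def klift {ι κ : Type} (K : Matrix ι κ Op) (h : ∀ i k, K i k ∈ sf 1) : Matrix ι κ Pair :=
  fun i k => (mem_sf.mp (h i k)).choose

theorem klift_deg {ι κ : Type} (K : Matrix ι κ Op) (h : ∀ i k, K i k ∈ sf 1) :
    ∀ i k, klift K h i k ∈ fil 1 := fun i k => (mem_sf.mp (h i k)).choose_spec.1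

theorem klift_fst {ι κ : Type} (K : Matrix ι κ Op) (h : ∀ i k, K i k ∈ sf 1) :
    fstM (klift K h) = K := funext fun i => funext fun k => (mem_sf.mp (h i k)).choose_spec.2

variable (n : ℕ)

/-- Index of the terms with `r` blocks. -/
abbrev Idx (r : ℕ) (n : ℕ) : Type := Fin r × Fin (rep n).dim

/-- Lift of the first differential. -/
def kp1 : Matrix (Idx 4 n) (Idx 1 n) Pair := klift (rep n).k1 fun i k => ((rep n).good_k1 i k).1

/-- Lift of the second differential. -/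
def kp2 : Matrix (Idx 6 n) (Idx 4 n) Pair := klift (rep n).k2 fun i k => ((rep n).good_k2 i k).1

/-- Lift of the third differential. -/
def kp3 : Matrix (Idx 4 n) (Idx 6 n) Pair := klift (rep n).k3 fun i k => ((rep n).good_k3 i k).1

/-- Lift of the fourth differential. -/
def kp4 : Matrix (Idx 1 n) (Idx 4 n) Pair := klift (rep n).k4 fun i k => ((rep n).good_k4 i k).1

theorem kp1_deg : Deg1 (kp1 n) := klift_deg _ _
theorem kp2_deg : Deg1 (kp2 n) := klift_deg _ _
theorem kp3_deg : Deg1 (kp3 n) := klift_deg _ _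
theorem kp4_deg : Deg1 (kp4 n) := klift_deg _ _

theorem kp1_fst : fstM (kp1 n) = (rep n).k1 := klift_fst _ _
theorem kp2_fst : fstM (kp2 n) = (rep n).k2 := klift_fst _ _
theorem kp3_fst : fstM (kp3 n) = (rep n).k3 := klift_fst _ _
theorem kp4_fst : fstM (kp4 n) = (rep n).k4 := klift_fst _ _

theorem step_mem {ι κ : Type} [Fintype ι] [Fintype κ] {j j' : Fin 5} (h : (j' : ℕ) + 1 = j)
    {K : Matrix ι κ Pair} (hK : Deg1 K) (x : term j ι) :
    step j j' K x.1 ∈ term j' κ := by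
  obtain ⟨β, μ, hβ, hμ, he⟩ := exists_emb x.2
  rw [he, step_emb h hK hβ hμ]
  exact emb_mem_term (hβ.mul_deg1 h hK) (hμ.mul_deg1 h hK)

/-- A differential between terms. -/
def dd {ι κ : Type} [Fintype ι] [Fintype κ] (j j' : Fin 5) (h : (j' : ℕ) + 1 = j)
    (K : Matrix ι κ Pair) (hK : Deg1 K) : term j ι →ₗ[Alg] term j' κ :=
  LinearMap.codRestrict _ ((step j j' K).comp (term j ι).subtype) (step_mem h hK)

/-- `P₁ → P₀`. -/
def d1 : term 1 (Idx 4 n) →ₗ[Alg] term 0 (Idx 1 n) := dd 1 0 rfl (kp1 n) (kp1_deg n)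
/-- `P₂ → P₁`. -/
def d2 : term 2 (Idx 6 n) →ₗ[Alg] term 1 (Idx 4 n) := dd 2 1 rfl (kp2 n) (kp2_deg n)
/-- `P₃ → P₂`. -/
def d3 : term 3 (Idx 4 n) →ₗ[Alg] term 2 (Idx 6 n) := dd 3 2 rfl (kp3 n) (kp3_deg n)
/-- `P₄ → P₃`. -/
def d4 : term 4 (Idx 1 n) →ₗ[Alg] term 3 (Idx 4 n) := dd 4 3 rfl (kp4 n) (kp4_deg n)

theorem step_step {ι κ ξ : Type} [Fintype ι] [Fintype κ] [Fintype ξ] {jp j j' : Fin 5}
    (h₁ : (j : ℕ) + 1 = jp) (h₂ : (j' : ℕ) + 1 = j) {K' : Matrix ι κ Pair}
    {K : Matrix κ ξ Pair} (hK' : Deg1 K') (hK : Deg1 K) (h0 : fstM K' * fstM K = 0)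
    {y : ι → Alg} (hy : y ∈ term jp ι) : step j j' K (step jp j K' y) = 0 := by
  obtain ⟨β, μ, hβ, hμ, rfl⟩ := exists_emb hy
  rw [step_emb h₁ hK' hβ hμ, step_emb h₂ hK (hβ.mul_deg1 h₁ hK') (hμ.mul_deg1 h₁ hK'),
    Matrix.mul_assoc μ, h0, Matrix.mul_zero]
  have hb : β * K' * K = 0 := fstM_injective ((hβ.mul_deg1 h₁ hK').mul_deg1 h₂ hK) (OkV.zero j')
    (by rw [fstM_mul, fstM_mul, Matrix.mul_assoc, h0, Matrix.mul_zero]; rfl)
  rw [hb, emb_zero]

theorem d4_injective : Function.Injective (d4 n) := by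
  rw [injective_iff_map_eq_zero]
  intro x hx
  refine Subtype.ext (kernel_top (j := 4) (j' := 3) rfl (L := (rep n).k3) (kp4_deg n)
    (by rw [kp4_fst]; exact (rep n).k4_k3) (fun i c => ((rep n).good_k3 i c).1)
    (by rw [kp4_fst]; exact fun d x hx h => (rep n).exact3 d x hx h)
    (by rw [kp4_fst]; exact fun d x hx h => (rep n).exact4 d x hx h) x.2 (congrArg Subtype.val hx))

theorem ker_d3 : LinearMap.ker (d3 n) = LinearMap.range (d4 n) := by
  refine le_antisymm (fun x hx => ?_) ?_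
  · obtain ⟨y, hy, hye⟩ := kernel_step (jp := 4) (j := 3) (j' := 2) rfl rfl (L := (rep n).k2)
      (kp4_deg n) (kp3_deg n) (by rw [kp3_fst]; exact (rep n).k3_k2)
      (fun i c => ((rep n).good_k2 i c).1)
      (by rw [kp4_fst, kp3_fst]; exact fun d x hx h => (rep n).exact3 d x hx h)
      (by rw [kp3_fst]; exact fun d x hx h => (rep n).exact2 d x hx h) x.2
      (congrArg Subtype.val (LinearMap.mem_ker.mp hx))
    exact ⟨⟨y, hy⟩, Subtype.ext hye⟩
  · rintro _ ⟨y, rfl⟩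
    exact LinearMap.mem_ker.mpr (Subtype.ext (step_step rfl rfl (kp4_deg n) (kp3_deg n)
      (by rw [kp4_fst, kp3_fst]; exact (rep n).k4_k3) y.2))

theorem ker_d2 : LinearMap.ker (d2 n) = LinearMap.range (d3 n) := by
  refine le_antisymm (fun x hx => ?_) ?_
  · obtain ⟨y, hy, hye⟩ := kernel_step (jp := 3) (j := 2) (j' := 1) rfl rfl (L := (rep n).k1)
      (kp3_deg n) (kp2_deg n) (by rw [kp2_fst]; exact (rep n).k2_k1)
      (fun i c => ((rep n).good_k1 i c).1)
      (by rw [kp3_fst, kp2_fst]; exact fun d x hx h => (rep n).exact2 d x hx h)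
      (by rw [kp2_fst]; exact fun d x hx h => (rep n).exact1 d x hx h) x.2
      (congrArg Subtype.val (LinearMap.mem_ker.mp hx))
    exact ⟨⟨y, hy⟩, Subtype.ext hye⟩
  · rintro _ ⟨y, rfl⟩
    exact LinearMap.mem_ker.mpr (Subtype.ext (step_step rfl rfl (kp3_deg n) (kp2_deg n)
      (by rw [kp3_fst, kp2_fst]; exact (rep n).k3_k2) y.2))

/-- Augmentation of every level of a bimodule coordinate. -/
def augR (w : Matrix (Fin 5 × Fin 2) (Idx 1 n) Op) (l : Fin 5) : Fin 2 → Pol :=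
  fun a => (rep n).aug (w (l, a))

theorem aug_mul_left {α β : Type} [Fintype β] (A : Matrix α β Op)
    (w : Matrix β (Idx 1 n) Op) (a : α) :
    (rep n).aug ((A * w) a) = ∑ k, A a k ((rep n).aug (w k)) := by
  simp only [Rep.aug, mul_apply, LinearMap.sum_apply, Module.End.mul_apply, map_sum]
  exact Finset.sum_comm

theorem augR_top (b : BMat) (w : Matrix (Fin 5 × Fin 2) (Idx 1 n) Op) (l : Fin 5) :
    augR n (top b * w) l = ∑ j, app (b l j).2 (augR n w j) := by
  funext a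
  rw [augR, aug_mul_left, Fintype.sum_prod_type, Finset.sum_apply]
  rfl

theorem augR_dbig (w : Matrix (Fin 5 × Fin 2) (Idx 1 n) Op) (l : Fin 5) :
    augR n (dbig * w) l = app (dmat op) (augR n w l) := by
  funext a
  rw [augR, aug_mul_left, Fintype.sum_prod_type,
    Finset.sum_eq_single l (fun c _ hc => Finset.sum_eq_zero fun k _ => by simp [dbig, Ne.symm hc])
      (fun h => absurd (Finset.mem_univ _) h)]
  simp [dbig, app, augR]

theorem aug_mul_k1 {α : Type} (x : Matrix α (Idx 4 n) Op) (a : α) :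
    (rep n).aug ((x * (rep n).k1) a) = 0 := (rep n).aug_k1 (x a)

theorem augR_mem {w : Matrix (Fin 5 × Fin 2) (Idx 1 n) Op} {d : Fin 5 × Fin 2 → ℤ}
    (hw : ∀ li i, w li i ∈ sf (d li)) (l : Fin 5) (a : Fin 2) : augR n w l a ∈ vs n := by
  show ∑ b, w (l, a) (0, b) ((rep n).vec b) ∈ vs n
  exact Submodule.sum_mem _ fun b _ => sf_mem_vs (hw (l, a) (0, b)) (rep_vec_mem n b)

theorem exists_row {f : Pol} (hf : f ∈ vs n) :
    ∃ r : Idx 1 n → Op, (∀ (d : ℤ), 0 ≤ d → ∀ i, r i ∈ sf d) ∧ (rep n).aug r = f := by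
  obtain ⟨c, hc⟩ := exists_coeff hf
  refine ⟨fun i => c i.2 • 1, fun d hd i => Submodule.smul_mem _ _ (one_mem_sf hd), ?_⟩
  simpa [Rep.aug] using hc

theorem aug_sub_rows {α : Type} (x y : Matrix α (Idx 1 n) Op) (a : α) :
    (rep n).aug ((x - y) a) = (rep n).aug (x a) - (rep n).aug (y a) := (rep n).aug_sub _ _

/-- The images of the basis in the extension. -/
def eta (b : Fin (rep n).dim) : GMod n :=
  GMod.mk 0 (LMod.mk (fun l => if l = 0 then (rep n).vec b else 0) fun l => by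
    split_ifs
    exacts [rep_vec_mem n b, zero_mem _])

/-- The augmentation `P₀ → G`. -/
def eps : term 0 (Idx 1 n) →ₗ[Alg] GMod n where
  toFun x := ∑ i, x.1 i • eta n i.2
  map_add' x y := by
    rw [← Finset.sum_add_distrib]
    exact Finset.sum_congr rfl fun i _ => add_smul _ _ _
  map_smul' a x := by
    rw [RingHom.id_apply, Finset.smul_sum]
    exact Finset.sum_congr rfl fun i _ => mul_smul _ _ _

theorem GMod.quo_sum {α : Type} (s : Finset α) (f : α → GMod n) (l : Fin 5) :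
    (∑ i ∈ s, f i).quo.val l = ∑ i ∈ s, (f i).quo.val l := by
  classical
  induction s using Finset.induction_on with
  | empty => rfl
  | @insert a s ha ih => rw [Finset.sum_insert ha, Finset.sum_insert ha, ← ih]; rfl

theorem GMod.sub_sum {α : Type} (s : Finset α) (f : α → GMod n) (l : Fin 5) :
    (∑ i ∈ s, f i).sub.val l = ∑ i ∈ s, (f i).sub.val l := by
  classical
  induction s using Finset.induction_on with
  | empty => rfl
  | @insert a s ha ih => rw [Finset.sum_insert ha, Finset.sum_insert ha, ← ih]; rfl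

theorem eps_emb {β : Matrix (Fin 5) (Idx 1 n) Pair} {μ : Matrix (Fin 5 × Fin 2) (Idx 1 n) Op}
    (hβ : OkV 0 β) (hμ : OkW 1 0 μ) (x : term 0 (Idx 1 n)) (hx : x.1 = emb 0 β μ) (l : Fin 5) :
    (eps n x).quo.val l = (rep n).aug (fstM β l) ∧
      (eps n x).sub.val l = contr (augR n μ l) := by
  have hq : ∀ i : Idx 1 n, (emb 0 β μ i • eta n i.2).quo.val l = (β l i).1 ((rep n).vec i.2) := by
    intro i
    rw [GMod.quo_smul]
    show ((mkA _ _) • (eta n i.2).quo).val l = _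
    rw [LMod.val_smul (emb_okB hβ i) (emb_okM hμ i)]
    rw [Finset.sum_eq_single 0 (fun j _ hj => by simp [colB, hj]) (by simp)]
    simp [colB, eta, GMod.quo, GMod.mk, LMod.val, LMod.mk]
  have hs : ∀ i : Idx 1 n, (emb 0 β μ i • eta n i.2).sub.val l =
      contr fun a => μ (l, a) i ((rep n).vec i.2) := by
    intro i
    show ((mkA _ _) • eta n i.2).sub.val l = _
    rw [GMod.sub_smul (emb_okB hβ i) (emb_okM hμ i)]
    have h1 : ∀ j, (eta n i.2).sub.val j = 0 := fun j => rfl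
    simp only [h1, map_zero, Finset.sum_const_zero, zero_add]
    congr 1
    funext a
    rw [Finset.sum_eq_single 0 (fun j _ hj => by simp [colM, hj]) (by simp)]
    simp [colM, eta, GMod.quo, GMod.mk, LMod.val, LMod.mk]
  refine ⟨?_, ?_⟩
  · show (∑ i, x.1 i • eta n i.2).quo.val l = _
    rw [hx, GMod.quo_sum, Finset.sum_congr rfl fun i _ => hq i, Fintype.sum_prod_type]
    simp [Rep.aug, fstM]
  · show (∑ i, x.1 i • eta n i.2).sub.val l = _
    rw [hx, GMod.sub_sum, Finset.sum_congr rfl fun i _ => hs i, ← contr_sum, Fintype.sum_prod_type]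
    congr 1
    funext a
    simp [augR, Rep.aug, Finset.sum_apply]

theorem preimage_of_contr_zero {f : Fin 2 → Pol} (hf : ∀ a, f a ∈ vs n) (hc : contr f = 0) :
    app (dmat op) ((-1 / ((n + 1 : ℕ) : ℂ)) • f) = f := by
  have hg : ∀ a, ((-1 / ((n + 1 : ℕ) : ℂ)) • f) a ∈ vs n := fun a => Submodule.smul_mem _ _ (hf a)
  funext a
  rw [app_dmat hg a, contr_smul, hc, smul_zero]
  have h0 : incl 0 a = 0 := by fin_cases a <;> simp [incl]
  rw [h0, zero_sub, ← neg_smul, Pi.smul_apply, smul_smul]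
  have : ((n + 1 : ℕ) : ℂ) ≠ 0 := Nat.cast_ne_zero.mpr (Nat.succ_ne_zero n)
  rw [show -((n + 1 : ℕ) : ℂ) * (-1 / ((n + 1 : ℕ) : ℂ)) = 1 by field_simp, one_smul]

theorem ker_eps : LinearMap.ker (eps n) = LinearMap.range (d1 n) := by
  refine le_antisymm (fun x hx => ?_) ?_
  · rw [LinearMap.mem_ker] at hx
    obtain ⟨β, μ, hβ, hμ, he⟩ := exists_emb x.2
    have hq : ∀ l, (rep n).aug (fstM β l) = 0 := fun l => by
      rw [← (eps_emb n hβ hμ x he l).1, hx]; rfl
    have hs : ∀ l, contr (augR n μ l) = 0 := fun l => by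
      rw [← (eps_emb n hβ hμ x he l).2, hx]; rfl
    choose yb hyb hybe using fun l : Fin 5 => (rep n).exact0 ((l : ℤ) - ((0 : Fin 5) : ℕ))
      (fstM β l) (fun i => mem_sf.mpr ⟨_, hβ l i, rfl⟩) (hq l)
    obtain ⟨β', hβ', hβ'e⟩ := lift_rows (j := (1 : Fin 5)) (y := Matrix.of fun l i => yb l i)
      (fun l i => sf_mono (by simp) (hyb l i))
    have hβeq : β' * kp1 n = β := fstM_injective (hβ'.mul_deg1 rfl (kp1_deg n)) hβ (by
      rw [fstM_mul, hβ'e, kp1_fst]; exact funext fun l => hybe l)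
    choose r hr hre using fun li : Fin 5 × Fin 2 => exists_row n
      (Submodule.smul_mem (vs n) (-1 / ((n + 1 : ℕ) : ℂ)) (augR_mem n hμ li.1 li.2))
    have hw : OkW 0 0 (Matrix.of r) := fun li i => hr li _ (by simp) i
    have haug : ∀ li : Fin 5 × Fin 2, (rep n).aug ((μ - dbig * Matrix.of r) li) = 0 := by
      rintro ⟨l, a⟩
      have h2 : augR n (Matrix.of r) l = (-1 / ((n + 1 : ℕ) : ℂ)) • augR n μ l :=
        funext fun b => hre (l, b)
      have h3 : (rep n).aug ((dbig * Matrix.of r) (l, a)) = augR n μ l a := by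
        show augR n (dbig * Matrix.of r) l a = _
        rw [augR_dbig, h2, preimage_of_contr_zero n (augR_mem n hμ l) (hs l)]
      rw [aug_sub_rows, h3]
      exact sub_self _
    choose ym hym hyme using fun li : Fin 5 × Fin 2 =>
      (rep n).exact0 ((li.1 : ℤ) + 1 - ((0 : Fin 5) : ℕ)) ((μ - dbig * Matrix.of r) li)
        (fun i => hμ.sub hw.dbig_mul li i) (haug li)
    have hμ' : OkW 1 (1 : Fin 5) (Matrix.of ym) := fun li i => sf_mono (by simp) (hym li i)
    refine ⟨⟨emb 1 β' (Matrix.of ym), emb_mem_term hβ' hμ'⟩, Subtype.ext ?_⟩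
    show step 1 0 (kp1 n) (emb 1 β' (Matrix.of ym)) = x.1
    have hmk : Matrix.of ym * fstM (kp1 n) = μ - dbig * Matrix.of r := by
      rw [kp1_fst]; exact funext fun li => hyme li
    rw [step_emb rfl (kp1_deg n) hβ' hμ', hβeq, hmk, he]
    have : emb 0 β μ = emb 0 β (μ - dbig * Matrix.of r) +
        emb 0 (0 : Matrix (Fin 5) (Idx 1 n) Pair) (dbig * Matrix.of r) := by
      rw [emb_add hβ (hμ.sub hw.dbig_mul) (OkV.zero 0) hw.dbig_mul, add_zero, sub_add_cancel]
    rw [this, (emb_eq_zero (OkV.zero 0) hw.dbig_mul).mpr ⟨rfl, _, hw, rfl⟩, add_zero]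
  · rintro _ ⟨y, rfl⟩
    obtain ⟨β, μ, hβ, hμ, he⟩ := exists_emb y.2
    have hval : (d1 n y).1 = emb 0 (β * kp1 n) (μ * fstM (kp1 n)) := by
      show step 1 0 (kp1 n) y.1 = _
      rw [he, step_emb rfl (kp1_deg n) hβ hμ]
    rw [LinearMap.mem_ker]
    have h := eps_emb n (hβ.mul_deg1 rfl (kp1_deg n)) (hμ.mul_deg1 rfl (kp1_deg n)) _ hval
    refine GMod.ext (LMod.ext (funext fun l => ?_)) (LMod.ext (funext fun l => ?_))
    · rw [(h l).2]
      show contr _ = 0
      have : augR n (μ * fstM (kp1 n)) l = 0 := funext fun a => by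
        rw [augR, kp1_fst]; exact aug_mul_k1 n μ (l, a)
      rw [this]
      simp [contr]
    · rw [(h l).1, fstM_mul, kp1_fst, aug_mul_k1]
      rfl

theorem eps_surjective : Function.Surjective (eps n) := by
  intro g
  have hdiv : ∀ l, contr ((((n + 1 : ℕ) : ℂ))⁻¹ • incl (g.sub.val l)) = g.sub.val l := fun l => by
    rw [contr_smul, contr_incl (LMod.val_mem _ l), inv_smul_smul₀]
    exact Nat.cast_ne_zero.mpr (Nat.succ_ne_zero n)
  choose rb hrb hrbe using fun l : Fin 5 => exists_row n (LMod.val_mem g.quo l)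
  choose rm hrm hrme using fun li : Fin 5 × Fin 2 => exists_row n
    (Submodule.smul_mem (vs n) (((n + 1 : ℕ) : ℂ))⁻¹ (incl_mem (LMod.val_mem g.sub li.1) li.2))
  obtain ⟨β, hβ, hβe⟩ := lift_rows (j := (0 : Fin 5)) (y := Matrix.of rb)
    (fun l i => hrb l _ (by simp) i)
  have hμ : OkW 1 0 (Matrix.of rm) := fun li i => hrm li _ (by simp; omega) i
  refine ⟨⟨emb 0 β (Matrix.of rm), emb_mem_term hβ hμ⟩,
    GMod.ext (LMod.ext (funext fun l => ?_)) (LMod.ext (funext fun l => ?_))⟩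
  · rw [(eps_emb n hβ hμ _ rfl l).2]
    refine Eq.trans (congrArg contr (funext fun a => ?_)) (hdiv l)
    exact hrme (l, a)
  · rw [(eps_emb n hβ hμ _ rfl l).1, hβe]
    exact hrbe l

/-- Cycles in `P₁` with their class in `Y (n-1)`. -/
def gam : Submodule Alg ((Idx 4 n → Alg) × YP n) where
  carrier := {p | ∃ (β : Matrix (Fin 5) (Idx 4 n) Pair) (μ : Matrix (Fin 5 × Fin 2) (Idx 4 n) Op)
    (w : Matrix (Fin 5 × Fin 2) (Idx 1 n) Op), OkV 1 β ∧ OkW 1 1 μ ∧ OkW 0 0 w ∧
      p.1 = emb 1 β μ ∧ fstM β * (rep n).k1 = 0 ∧ μ * (rep n).k1 = dbig * w ∧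
      ∀ l, incl (p.2.val l) = augR n w l}
  zero_mem' := ⟨0, 0, 0, OkV.zero 1, OkW.zero 1 1, OkW.zero 0 0, (emb_zero 1).symm,
    by rw [show fstM (0 : Matrix (Fin 5) (Idx 4 n) Pair) = 0 from rfl, Matrix.zero_mul],
    by rw [Matrix.zero_mul, Matrix.mul_zero], fun l => funext fun a => by
      fin_cases a <;> simp [Prod.snd_zero, LMod.val_zero, incl, augR, Rep.aug]⟩
  add_mem' := by
    rintro p q ⟨β, μ, w, hβ, hμ, hw, he, hb, hm, hi⟩ ⟨β', μ', w', hβ', hμ', hw', he', hb', hm', hi'⟩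
    refine ⟨β + β', μ + μ', w + w', hβ.add hβ', hμ.add hμ', hw.add hw', ?_, ?_, ?_, fun l => ?_⟩
    · rw [Prod.fst_add, he, he', emb_add hβ hμ hβ' hμ']
    · rw [show fstM (β + β') = fstM β + fstM β' from rfl, Matrix.add_mul, hb, hb', add_zero]
    · rw [Matrix.add_mul, hm, hm', Matrix.mul_add]
    · have e1 := hi l
      have e2 := hi' l
      funext a
      have e : augR n (w + w') l a = augR n w l a + augR n w' l a := by
        simp [augR, Rep.aug, Finset.sum_add_distrib]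
      rw [e, ← e1, ← e2, Prod.snd_add, LMod.val_add]
      fin_cases a <;> simp [incl, mul_add]
  smul_mem' := by
    rintro a p ⟨β, μ, w, hβ, hμ, hw, he, hb, hm, hi⟩
    obtain ⟨b, m, hb', hm', rfl⟩ := exists_mkA a
    refine ⟨b * β, top b * μ + m * fstM β, top b * w, hβ.left_mul hb',
      (hμ.left_top hb').add (OkW.left_mat hm' hβ), hw.left_top hb', ?_, ?_, ?_, fun l => ?_⟩
    · rw [Prod.smul_fst, he, smul_emb hb' hm' hβ hμ]
    · have : fstM (b * β) = bot b * fstM β := by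
        ext1 l i
        simp [fstM, bot, mul_apply, Prod.fst_sum]
      rw [this, Matrix.mul_assoc, hb, Matrix.mul_zero]
    · rw [Matrix.add_mul, Matrix.mul_assoc, hm, Matrix.mul_assoc, hb, Matrix.mul_zero, add_zero,
        ← Matrix.mul_assoc, top_dbig hb', Matrix.mul_assoc]
    · rw [augR_top, Prod.smul_snd, LMod.val_smul hb' hm']
      simp only [← hi, fun j => incl_word (hb' l j)]
      funext c
      fin_cases c <;> simp [incl, Finset.mul_sum]

/-- The class of a cycle. -/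
def theta : gam n →ₗ[Alg] YP n := (LinearMap.snd Alg _ _).comp (gam n).subtype

/-- The underlying cycle. -/
def under : gam n →ₗ[Alg] term 1 (Idx 4 n) :=
  LinearMap.codRestrict _ ((LinearMap.fst Alg _ _).comp (gam n).subtype) fun p => by
    obtain ⟨β, μ, w, hβ, hμ, -, he, -⟩ := p.2
    show p.1.1 ∈ _
    rw [he]
    exact emb_mem_term hβ hμ

theorem incl_app {g : Pol} (hg : g ∈ vp n) : app (dmat op) (incl g) = 0 := by
  funext a
  rw [app_dmat (incl_mem hg) a, contr_incl hg]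
  fin_cases a <;> simp [incl, MvPolynomial.smul_eq_C_mul] <;> ring

theorem theta_surjective : Function.Surjective (theta n) := by
  intro ω
  choose r hr hre using fun li : Fin 5 × Fin 2 =>
    exists_row n (incl_mem (LMod.val_mem ω li.1) li.2)
  have hw : OkW 0 0 (Matrix.of r) := fun li i => hr li _ (by simp) i
  have haug : ∀ li : Fin 5 × Fin 2, (rep n).aug ((dbig * Matrix.of r) li) = 0 := by
    rintro ⟨l, a⟩
    show augR n (dbig * Matrix.of r) l a = 0
    rw [augR_dbig, show augR n (Matrix.of r) l = incl (ω.val l) from funext fun b => hre (l, b),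
      incl_app n (LMod.val_mem ω l)]
    rfl
  choose ym hym hyme using fun li : Fin 5 × Fin 2 =>
    (rep n).exact0 ((li.1 : ℤ) + 1 - ((0 : Fin 5) : ℕ)) ((dbig * Matrix.of r) li)
      (fun i => hw.dbig_mul li i) (haug li)
  have hμ : OkW 1 (1 : Fin 5) (Matrix.of ym) := fun li i => sf_mono (by simp) (hym li i)
  refine ⟨⟨(emb 1 0 (Matrix.of ym), ω), 0, Matrix.of ym, Matrix.of r, OkV.zero 1, hμ, hw, rfl,
    ?_, funext fun li => hyme li, fun l => funext fun b => (hre (l, b)).symm⟩, rfl⟩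
  rw [show fstM (0 : Matrix (Fin 5) (Idx 4 n) Pair) = 0 from rfl, Matrix.zero_mul]

theorem range_under : LinearMap.range (under n) = LinearMap.ker (d1 n) := by
  refine le_antisymm ?_ (fun x hx => ?_)
  · rintro _ ⟨⟨p, β, μ, w, hβ, hμ, hw, he, hb, hm, hi⟩, rfl⟩
    rw [LinearMap.mem_ker]
    refine Subtype.ext ?_
    show step 1 0 (kp1 n) p.1 = 0
    rw [he, step_emb rfl (kp1_deg n) hβ hμ,
      emb_eq_zero (hβ.mul_deg1 rfl (kp1_deg n)) (hμ.mul_deg1 rfl (kp1_deg n))]
    refine ⟨fstM_injective (hβ.mul_deg1 rfl (kp1_deg n)) (OkV.zero 0) ?_, w, hw, ?_⟩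
    · rw [fstM_mul, kp1_fst, hb]; rfl
    · rw [kp1_fst, hm]
  · obtain ⟨β, μ, hβ, hμ, he⟩ := exists_emb x.2
    have h0 : step 1 0 (kp1 n) x.1 = 0 := congrArg Subtype.val (LinearMap.mem_ker.mp hx)
    rw [he, step_emb rfl (kp1_deg n) hβ hμ,
      emb_eq_zero (hβ.mul_deg1 rfl (kp1_deg n)) (hμ.mul_deg1 rfl (kp1_deg n))] at h0
    obtain ⟨hb0, w, hw, hm⟩ := h0
    rw [kp1_fst] at hm
    have hb : fstM β * (rep n).k1 = 0 := by rw [← kp1_fst, ← fstM_mul, hb0]; rfl
    have hd : ∀ l, app (dmat op) (augR n w l) = 0 := fun l => by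
      rw [← augR_dbig, ← hm]
      exact funext fun a => aug_mul_k1 n μ (l, a)
    have hne : ((n + 1 : ℕ) : ℂ) ≠ 0 := Nat.cast_ne_zero.mpr (Nat.succ_ne_zero n)
    have hfix : ∀ l, incl ((((n + 1 : ℕ) : ℂ))⁻¹ • contr (augR n w l)) = augR n w l := fun l => by
      funext a
      have h := app_dmat (augR_mem n hw l) a
      rw [hd l, Pi.zero_apply, eq_comm, sub_eq_zero] at h
      have e : incl ((((n + 1 : ℕ) : ℂ))⁻¹ • contr (augR n w l)) a =
          (((n + 1 : ℕ) : ℂ))⁻¹ • incl (contr (augR n w l)) a := by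
        fin_cases a <;> simp [incl]
      rw [e, h, inv_smul_smul₀ hne]
    refine ⟨⟨(x.1, LMod.mk (fun l => (((n + 1 : ℕ) : ℂ))⁻¹ • contr (augR n w l))
      fun l => Submodule.smul_mem _ _ (contr_mem (augR_mem n hw l))),
      β, μ, w, hβ, hμ, hw, he, hb, hm, hfix⟩, Subtype.ext rfl⟩

theorem under_injective : Function.Injective (under n) := by
  rw [injective_iff_map_eq_zero]
  rintro ⟨p, β, μ, w, hβ, hμ, hw, he, hb, hm, hi⟩ h
  have hp : p.1 = 0 := congrArg Subtype.val h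
  obtain ⟨hb0, v, hv, hμv⟩ := (emb_eq_zero hβ hμ).mp (he ▸ hp)
  have hwv : v * (rep n).k1 = w := by
    refine sub_eq_zero.mp (dbig_injective (c := 0) (fun li i => ?_) ?_)
    · refine sub_mem ?_ (sf_mono (by simp) (hw li i))
      rw [mul_apply]
      exact Submodule.sum_mem _ fun k _ =>
        sf_mono (by simp) (mul_mem_sf (hv li k) ((rep n).good_k1 k i).1)
    · rw [Matrix.mul_sub, ← Matrix.mul_assoc, ← hμv, hm, sub_self]
  refine Subtype.ext (Prod.ext hp (LMod.ext (funext fun l => incl_injective ?_)))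
  rw [hi l, ← hwv]
  funext a
  show (rep n).aug ((v * (rep n).k1) (l, a)) = incl 0 a
  rw [aug_mul_k1]
  fin_cases a <;> simp [incl]

theorem under_ker_theta :
    (LinearMap.ker (theta n)).map (under n) = LinearMap.range (d2 n) := by
  refine le_antisymm ?_ ?_
  · rintro _ ⟨⟨p, β, μ, w, hβ, hμ, hw, he, hb, hm, hi⟩, hk, rfl⟩
    have hp2 : p.2 = 0 := hk
    have haug : ∀ li : Fin 5 × Fin 2, (rep n).aug (w li) = 0 := by
      rintro ⟨l, a⟩
      show augR n w l a = 0
      rw [← hi l, hp2]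
      fin_cases a <;> simp [incl, LMod.val_zero]
    choose yw hyw hywe using fun li : Fin 5 × Fin 2 =>
      (rep n).exact0 ((li.1 : ℤ) - ((0 : Fin 5) : ℕ)) (w li)
        (fun i => sf_mono (by simp) (hw li i)) (haug li)
    have hy : OkW 0 (1 : Fin 5) (Matrix.of yw) := fun li i => sf_mono (by simp) (hyw li i)
    have hwe : Matrix.of yw * (rep n).k1 = w := funext fun li => hywe li
    obtain ⟨yb, hyb, hybe⟩ := exact_rows (K' := (rep n).k2) (K := (rep n).k1)
      (fun d x hx h => (rep n).exact1 d x hx h) (fun l : Fin 5 => (l : ℤ) - ((1 : Fin 5) : ℕ))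
      (x := fstM β) (fun l i => mem_sf.mpr ⟨_, hβ l i, rfl⟩) hb
    obtain ⟨β', hβ', hβ'e⟩ := lift_rows (j := (2 : Fin 5)) (y := yb)
      (fun l i => sf_mono (by simp; omega) (hyb l i))
    obtain ⟨ym, hym, hyme⟩ := exact_rows (K' := (rep n).k2) (K := (rep n).k1)
      (fun d x hx h => (rep n).exact1 d x hx h)
      (fun li : Fin 5 × Fin 2 => (li.1 : ℤ) + 1 - ((1 : Fin 5) : ℕ))
      (x := μ - dbig * Matrix.of yw) (fun li i => hμ.sub hy.dbig_mul li i)
      (by rw [Matrix.sub_mul, hm, Matrix.mul_assoc, hwe, sub_self])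
    have hμ' : OkW 1 (2 : Fin 5) ym := fun li i => sf_mono (by simp; omega) (hym li i)
    refine ⟨⟨emb 2 β' ym, emb_mem_term hβ' hμ'⟩, Subtype.ext ?_⟩
    show step 2 1 (kp2 n) (emb 2 β' ym) = p.1
    have hβeq : β' * kp2 n = β := fstM_injective (hβ'.mul_deg1 rfl (kp2_deg n)) hβ (by
      rw [fstM_mul, hβ'e, kp2_fst, hybe])
    rw [step_emb rfl (kp2_deg n) hβ' hμ', hβeq, kp2_fst, hyme, he]
    have : emb 1 β μ = emb 1 β (μ - dbig * Matrix.of yw) +
        emb 1 (0 : Matrix (Fin 5) (Idx 4 n) Pair) (dbig * Matrix.of yw) := by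
      rw [emb_add hβ (hμ.sub hy.dbig_mul) (OkV.zero 1) hy.dbig_mul, add_zero, sub_add_cancel]
    rw [this, (emb_eq_zero (OkV.zero 1) hy.dbig_mul).mpr ⟨rfl, _, hy, rfl⟩, add_zero]
  · rintro _ ⟨y, rfl⟩
    obtain ⟨β, μ, hβ, hμ, he⟩ := exists_emb y.2
    have hval : (d2 n y).1 = emb 1 (β * kp2 n) (μ * fstM (kp2 n)) := by
      show step 2 1 (kp2 n) y.1 = _
      rw [he, step_emb rfl (kp2_deg n) hβ hμ]
    refine ⟨⟨((d2 n y).1, 0), β * kp2 n, μ * fstM (kp2 n), 0, hβ.mul_deg1 rfl (kp2_deg n),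
      hμ.mul_deg1 rfl (kp2_deg n), OkW.zero 0 0, hval, ?_, ?_, fun l => funext fun a => ?_⟩,
      rfl, Subtype.ext rfl⟩
    · rw [fstM_mul, kp2_fst, Matrix.mul_assoc, (rep n).k2_k1, Matrix.mul_zero]
    · rw [kp2_fst, Matrix.mul_assoc, (rep n).k2_k1, Matrix.mul_zero, Matrix.mul_zero]
    · fin_cases a <;> simp [LMod.val_zero, incl, augR, Rep.aug]

end Vale.Agent.P176
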