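import Vale.Agent.P176.Vn

/-! Coordinates on sums of indecomposable projectives. -/

noncomputable section

namespace Vale.Agent.P176

open Matrix

variable {ι κ ξ : Type} [Fintype ι] [Fintype κ] [Fintype ξ]

/-- A column of the algebra part. -/
def colB (j : Fin 5) (v : Fin 5 → Pair) : BMat := fun l k => if k = j then v l else 0

/-- A column of the bimodule part. -/
def colM (j : Fin 5) (v : Fin 5 × Fin 2 → Op) : MMat := fun l k => if k = j then v l else 0

/-- Degree bound for algebra coordinates in the projective at vertex `j`. -/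
def OkV (j : Fin 5) (β : Matrix (Fin 5) ι Pair) : Prop :=
  ∀ (l : Fin 5) (i : ι), β l i ∈ fil ((l : ℤ) - (j : ℤ))

/-- Degree bound for bimodule coordinates in the projective at vertex `j`. -/
def OkW (s : ℤ) (j : Fin 5) (μ : Matrix (Fin 5 × Fin 2) ι Op) : Prop :=
  ∀ (li : Fin 5 × Fin 2) (i : ι), μ li i ∈ sf ((li.1 : ℤ) + s - (j : ℤ))

/-- First components. -/
def fstM {α : Type} (β : Matrix α ι Pair) : Matrix α ι Op := fun a i => (β a i).1

theorem fstM_mul {α : Type} (β : Matrix α ι Pair) (K : Matrix ι κ Pair) :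
    fstM (β * K) = fstM β * fstM K := by
  ext1 a i
  simp [fstM, mul_apply, Prod.fst_sum]

theorem okB_col {j : Fin 5} {v : Fin 5 → Pair}
    (h : ∀ l : Fin 5, v l ∈ fil ((l : ℤ) - (j : ℤ))) : OkB (colB j v) := fun l k => by
  rw [colB]
  split_ifs with e
  · subst e; exact h l
  · exact zero_mem _

theorem okM_col {s : ℤ} {j : Fin 5} {v : Fin 5 × Fin 2 → Op}
    (h : ∀ li : Fin 5 × Fin 2, v li ∈ sf ((li.1 : ℤ) + s - (j : ℤ))) : OkM s (colM j v) :=
  fun li k => by
    rw [colM]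
    split_ifs with e
    · subst e; exact h li
    · exact zero_mem _

/-- The element with the given coordinates. -/
def emb (j : Fin 5) (β : Matrix (Fin 5) ι Pair) (μ : Matrix (Fin 5 × Fin 2) ι Op) : ι → Alg :=
  fun i => mkA (colB j fun l => β l i) (colM j fun li => μ li i)

theorem emb_okB {j : Fin 5} {β : Matrix (Fin 5) ι Pair} (hb : OkV j β) (i : ι) :
    OkB (colB j fun l => β l i) := okB_col fun l => hb l i

theorem emb_okM {s : ℤ} {j : Fin 5} {μ : Matrix (Fin 5 × Fin 2) ι Op} (hm : OkW s j μ) (i : ι) :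
    OkM s (colM j fun li => μ li i) := okM_col fun li => hm li i

theorem emb_add {j : Fin 5} {β β' : Matrix (Fin 5) ι Pair}
    {μ μ' : Matrix (Fin 5 × Fin 2) ι Op} (hb : OkV j β) (hm : OkW 1 j μ) (hb' : OkV j β')
    (hm' : OkW 1 j μ') : emb j β μ + emb j β' μ' = emb j (β + β') (μ + μ') := by
  funext i
  simp only [emb, Pi.add_apply]
  rw [mkA_add (emb_okB hb i) (emb_okM hm i) (emb_okB hb' i) (emb_okM hm' i)]
  congr 1
  · ext1 l k; simp [colB]; split_ifs <;> simp
  · ext1 l k; simp [colM]; split_ifs <;> simp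

theorem emb_zero (j : Fin 5) : emb j (0 : Matrix (Fin 5) ι Pair) 0 = 0 := by
  funext i
  simp only [emb, Pi.zero_apply]
  convert mkA_zero using 2
  · ext1 l k; simp [colB]
  · ext1 l k; simp [colM]

theorem emb_eq_zero {j : Fin 5} {β : Matrix (Fin 5) ι Pair} {μ : Matrix (Fin 5 × Fin 2) ι Op}
    (hb : OkV j β) (hm : OkW 1 j μ) :
    emb j β μ = 0 ↔ β = 0 ∧ ∃ w, OkW 0 j w ∧ μ = dbig * w := by
  constructor
  · intro h
    have h' := fun i => (mkA_eq_zero (emb_okB hb i) (emb_okM hm i)).mp (congrFun h i)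
    refine ⟨?_, ?_⟩
    · ext1 l i
      simpa [colB] using congrFun (congrFun (h' i).1 l) j
    · choose w hw hwe using fun i => (h' i).2
      refine ⟨Matrix.of fun li i => w i li j, fun li i => hw i li j, ?_⟩
      ext1 li i
      have := congrFun (congrFun (hwe i) li) j
      simpa [colM, mul_apply] using this
  · rintro ⟨rfl, w, hw, rfl⟩
    funext i
    refine (mkA_eq_zero (emb_okB hb i) (emb_okM hm i)).mpr
      ⟨?_, colM j fun li => w li i, emb_okM hw i, ?_⟩
    · ext1 l k; simp [colB]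
    · ext1 li k
      by_cases e : k = j <;> simp [colM, mul_apply, e]

theorem OkV.add {j : Fin 5} {β β' : Matrix (Fin 5) ι Pair} (h : OkV j β) (h' : OkV j β') :
    OkV j (β + β') := fun l i => add_mem (h l i) (h' l i)

theorem OkV.sub {j : Fin 5} {β β' : Matrix (Fin 5) ι Pair} (h : OkV j β) (h' : OkV j β') :
    OkV j (β - β') := fun l i => sub_mem (h l i) (h' l i)

theorem OkV.zero (j : Fin 5) : OkV j (0 : Matrix (Fin 5) ι Pair) := fun _ _ => zero_mem _

theorem OkW.add {s : ℤ} {j : Fin 5} {μ μ' : Matrix (Fin 5 × Fin 2) ι Op} (h : OkW s j μ)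
    (h' : OkW s j μ') : OkW s j (μ + μ') := fun l i => add_mem (h l i) (h' l i)

theorem OkW.sub {s : ℤ} {j : Fin 5} {μ μ' : Matrix (Fin 5 × Fin 2) ι Op} (h : OkW s j μ)
    (h' : OkW s j μ') : OkW s j (μ - μ') := fun l i => sub_mem (h l i) (h' l i)

theorem OkW.neg {s : ℤ} {j : Fin 5} {μ : Matrix (Fin 5 × Fin 2) ι Op} (h : OkW s j μ) :
    OkW s j (-μ) := fun l i => neg_mem (h l i)

theorem OkW.zero (s : ℤ) (j : Fin 5) : OkW s j (0 : Matrix (Fin 5 × Fin 2) ι Op) :=
  fun _ _ => zero_mem _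

theorem OkW.dbig_mul {j : Fin 5} {w : Matrix (Fin 5 × Fin 2) ι Op} (hw : OkW 0 j w) :
    OkW 1 j (dbig * w) := fun li i => by
  rw [mul_apply]
  refine Submodule.sum_mem _ fun k _ => ?_
  unfold dbig
  split_ifs with h
  · exact sf_mono (by rw [h]; omega) (mul_mem_sf (dbig_mem li.2 k.2) (hw k i))
  · simp

theorem OkV.left_mul {j : Fin 5} {b : BMat} {β : Matrix (Fin 5) ι Pair} (hb : OkB b)
    (h : OkV j β) : OkV j (b * β) := fun l i => by
  rw [mul_apply]
  exact Submodule.sum_mem _ fun k _ =>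
    fil_mono (le_of_eq (by ring)) (mul_mem_fil (hb l k) (h k i))

theorem OkW.left_top {s : ℤ} {j : Fin 5} {b : BMat} {μ : Matrix (Fin 5 × Fin 2) ι Op}
    (hb : OkB b) (h : OkW s j μ) : OkW s j (top b * μ) := fun li i => by
  rw [mul_apply]
  exact Submodule.sum_mem _ fun k _ =>
    sf_mono (le_of_eq (by ring)) (mul_mem_sf (snd_entry_mem (hb li.1 k.1) li.2 k.2) (h k i))

theorem OkW.left_mat {s : ℤ} {j : Fin 5} {m : MMat} {β : Matrix (Fin 5) ι Pair} (hm : OkM s m)
    (h : OkV j β) : OkW s j (m * fstM β) := fun li i => by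
  rw [mul_apply]
  exact Submodule.sum_mem _ fun k _ =>
    sf_mono (le_of_eq (by ring)) (mul_mem_sf (hm li k) (mem_sf.mpr ⟨_, h k i, rfl⟩))

theorem smul_emb {j : Fin 5} {b : BMat} {m : MMat} {β : Matrix (Fin 5) ι Pair}
    {μ : Matrix (Fin 5 × Fin 2) ι Op} (hb : OkB b) (hm : OkM 1 m) (hβ : OkV j β)
    (hμ : OkW 1 j μ) : mkA b m • emb j β μ = emb j (b * β) (top b * μ + m * fstM β) := by
  funext i
  simp only [emb, Pi.smul_apply, smul_eq_mul]
  rw [mkA_mul hb hm (emb_okB hβ i) (emb_okM hμ i)]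
  congr 1
  · ext1 l k
    by_cases e : k = j <;> simp [colB, mul_apply, e]
  · ext1 l k
    by_cases e : k = j <;> simp [colB, colM, bot, fstM, mul_apply, e]

/-- The idempotent of vertex `j`. -/
def idem (j : Fin 5) : Alg := mkA (colB j fun l => if l = j then 1 else 0) 0

theorem okB_idem (j : Fin 5) : OkB (colB j fun l => if l = j then (1 : Pair) else 0) :=
  okB_col fun l => by
    split_ifs with e
    · subst e; exact one_mem_fil (by omega)
    · exact zero_mem _

theorem mkA_mul_idem {b : BMat} {m : MMat} (hb : OkB b) (hm : OkM 1 m) (j : Fin 5) :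
    mkA b m * idem j = mkA (colB j fun l => b l j) (colM j fun li => m li j) := by
  rw [idem, mkA_mul hb hm (okB_idem j) (OkM.zero 1)]
  congr 1
  · ext1 l k
    by_cases e : k = j <;> simp [colB, mul_apply, e]
  · rw [Matrix.mul_zero, zero_add]
    ext1 li k
    by_cases e : k = j <;> simp [colB, colM, bot, mul_apply, e, apply_ite Prod.fst]

/-- Sums of copies of the projective at vertex `j`. -/
def term (j : Fin 5) (ι : Type) : Submodule Alg (ι → Alg) where
  carrier := {x | ∀ i, x i * idem j = x i}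
  add_mem' := fun hx hy i => by simp [add_mul, hx i, hy i]
  zero_mem' := fun i => by simp
  smul_mem' := fun a x hx i => by simp [mul_assoc, hx i]

theorem emb_mem_term {j : Fin 5} {β : Matrix (Fin 5) ι Pair} {μ : Matrix (Fin 5 × Fin 2) ι Op}
    (hβ : OkV j β) (hμ : OkW 1 j μ) : emb j β μ ∈ term j ι := fun i => by
  simp only [emb]
  rw [mkA_mul_idem (emb_okB hβ i) (emb_okM hμ i)]
  congr 1
  · ext1 l k; simp [colB]
  · ext1 l k; simp [colM]

theorem exists_emb {j : Fin 5} {x : ι → Alg} (hx : x ∈ term j ι) :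
    ∃ β μ, OkV j β ∧ OkW 1 j μ ∧ x = emb j β μ := by
  choose b m hb hm he using fun i => exists_mkA (x i)
  refine ⟨fun l i => b i l j, fun li i => m i li j, fun l i => hb i l j, fun li i => hm i li j, ?_⟩
  funext i
  have := hx i
  rw [he i, mkA_mul_idem (hb i) (hm i)] at this
  rw [he i, ← this]
  rfl

theorem idem_mul_idem (j : Fin 5) : idem j * idem j = idem j := by
  conv_lhs => arg 1; rw [idem]
  rw [mkA_mul_idem (okB_idem j) (OkM.zero 1), idem]
  congr 1
  · ext1 l k; simp [colB]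
  · ext1 l k; simp [colM]

/-- Multiplication by the idempotent, as a projection onto `term`. -/
def termProj (j : Fin 5) (ι : Type) : (ι → Alg) →ₗ[Alg] term j ι where
  toFun x := ⟨fun i => x i * idem j, fun i => by rw [mul_assoc, idem_mul_idem]⟩
  map_add' x y := Subtype.ext (funext fun i => add_mul _ _ _)
  map_smul' a x := Subtype.ext (funext fun i => mul_assoc a (x i) _)

theorem term_projective (j : Fin 5) : Module.Projective Alg (term j ι) :=
  Module.Projective.of_split (term j ι).subtype (termProj j ι)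
    (LinearMap.ext fun x => Subtype.ext (funext fun i => x.2 i))

/-- Right multiplication by a matrix over the algebra. -/
def rmul (C : ι → κ → Alg) : (ι → Alg) →ₗ[Alg] (κ → Alg) where
  toFun x k := ∑ i, x i * C i k
  map_add' x y := funext fun k => by simp [add_mul, Finset.sum_add_distrib]
  map_smul' a x := funext fun k => by simp [Finset.mul_sum, mul_assoc]

theorem sum_emb_aux {j : Fin 5} (b : ι → Fin 5 → Pair) (m : ι → Fin 5 × Fin 2 → Op)
    (hb : ∀ i (l : Fin 5), b i l ∈ fil ((l : ℤ) - (j : ℤ)))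
    (hm : ∀ i (li : Fin 5 × Fin 2), m i li ∈ sf ((li.1 : ℤ) + 1 - (j : ℤ))) (s : Finset ι) :
    ∑ i ∈ s, mkA (colB j (b i)) (colM j (m i)) =
      mkA (colB j fun l => ∑ i ∈ s, b i l) (colM j fun li => ∑ i ∈ s, m i li) := by
  classical
  induction s using Finset.induction_on with
  | empty =>
    simp only [Finset.sum_empty]
    refine Eq.symm ?_
    convert mkA_zero using 2
    · ext1 l k; simp [colB]
    · ext1 l k; simp [colM]
  | @insert a s ha ih =>
    rw [Finset.sum_insert ha, ih, mkA_add (okB_col (hb a)) (okM_col (hm a))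
      (okB_col fun l => Submodule.sum_mem _ fun i _ => hb i l)
      (okM_col fun li => Submodule.sum_mem _ fun i _ => hm i li)]
    congr 1
    · ext1 l k; by_cases e : k = j <;> simp [colB, e, Finset.sum_insert ha]
    · ext1 l k; by_cases e : k = j <;> simp [colM, e, Finset.sum_insert ha]

/-- The differential given by a degree-one matrix from vertex `j` to vertex `j'`. -/
def step (j j' : Fin 5) (K : Matrix ι κ Pair) : (ι → Alg) →ₗ[Alg] (κ → Alg) :=
  rmul fun i k => mkA (colB j' fun l => if l = j then K i k else 0) 0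

/-- All entries have degree one. -/
def Deg1 (K : Matrix ι κ Pair) : Prop := ∀ i k, K i k ∈ fil 1

theorem OkV.mul_deg1 {j j' : Fin 5} {β : Matrix (Fin 5) ι Pair} {K : Matrix ι κ Pair}
    (hjj : (j' : ℕ) + 1 = j) (hβ : OkV j β) (hK : Deg1 K) : OkV j' (β * K) := fun l k => by
  rw [mul_apply]
  exact Submodule.sum_mem _ fun i _ => fil_mono (by omega) (mul_mem_fil (hβ l i) (hK i k))

theorem OkW.mul_deg1 {s : ℤ} {j j' : Fin 5} {μ : Matrix (Fin 5 × Fin 2) ι Op}
    {K : Matrix ι κ Pair} (hjj : (j' : ℕ) + 1 = j) (hμ : OkW s j μ) (hK : Deg1 K) :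
    OkW s j' (μ * fstM K) := fun li k => by
  rw [mul_apply]
  exact Submodule.sum_mem _ fun i _ =>
    sf_mono (by omega) (mul_mem_sf (hμ li i) (mem_sf.mpr ⟨_, hK i k, rfl⟩))

theorem step_emb {j j' : Fin 5} {K : Matrix ι κ Pair} (hjj : (j' : ℕ) + 1 = j) (hK : Deg1 K)
    {β : Matrix (Fin 5) ι Pair} {μ : Matrix (Fin 5 × Fin 2) ι Op} (hβ : OkV j β)
    (hμ : OkW 1 j μ) : step j j' K (emb j β μ) = emb j' (β * K) (μ * fstM K) := by
  funext k
  have hc : ∀ i, OkB (colB j' fun l => if l = j then K i k else 0) := fun i => okB_col fun l => by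
    split_ifs with e
    · subst e; exact fil_mono (by omega) (hK i k)
    · exact zero_mem _
  have h : ∀ i, emb j β μ i * mkA (colB j' fun l => if l = j then K i k else 0) 0 =
      mkA (colB j' fun l => β l i * K i k) (colM j' fun li => μ li i * (K i k).1) := fun i => by
    simp only [emb]
    rw [mkA_mul (emb_okB hβ i) (emb_okM hμ i) (hc i) (OkM.zero 1)]
    congr 1
    · ext1 l c
      by_cases e : c = j' <;> simp [colB, mul_apply, e]
    · rw [Matrix.mul_zero, zero_add]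
      ext1 li c
      by_cases e : c = j' <;> simp [colB, colM, bot, mul_apply, e, apply_ite Prod.fst]
  show ∑ i, emb j β μ i * mkA (colB j' fun l => if l = j then K i k else 0) 0 = _
  rw [Finset.sum_congr rfl fun i _ => h i, sum_emb_aux]
  · simp [emb, mul_apply, fstM]
  · exact fun i l => fil_mono (by omega) (mul_mem_fil (hβ l i) (hK i k))
  · exact fun i li => sf_mono (by omega) (mul_mem_sf (hμ li i) (mem_sf.mpr ⟨_, hK i k, rfl⟩))

theorem symb_dmat (i k : Fin 2) : symb 1 (dmat op i k) =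
    (!![-MvPolynomial.X 1, MvPolynomial.X 2; MvPolynomial.X 3, -MvPolynomial.X 0] :
      Matrix (Fin 2) (Fin 2) SPol) i k := by
  have h1 : symb 1 (1 : Op) = 0 := symb_one_of_mem_zero (one_mem_sf le_rfl)
  have h : ∀ a, symb 1 (op a) = MvPolynomial.X a := fun a => symb_gen a
  fin_cases i <;> fin_cases k <;> simp [dmat, h, h1]

theorem dmat_injective {d : ℤ} {f : Fin 2 → Op} (hf : ∀ k, f k ∈ sf d)
    (h : ∀ i, ∑ k, dmat op i k * f k = 0) : f = 0 := by
  by_cases hd : d < 0
  · funext k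
    simpa [sf_neg hd] using hf k
  obtain ⟨e, rfl⟩ := Int.eq_ofNat_of_zero_le (not_lt.mp hd)
  clear hd
  have hlow : ∀ (e : ℕ), (∀ k, f k ∈ sf (e : ℤ)) → ∀ k, f k ∈ sf ((e : ℤ) - 1) := by
    intro e he k
    refine mem_sf_of_symb (he k) ?_
    have hs : ∀ i, ∑ k, symb 1 (dmat op i k) * symb e (f k) = 0 := fun i => by
      rw [← map_zero (symb (1 + e)), ← h i, map_sum]
      exact Finset.sum_congr rfl fun k _ => (symb_mul_sf (by simpa using dbig_mem i k) (he k)).symm
    have e0 := hs 0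
    have e1 := hs 1
    simp [Fin.sum_univ_two, symb_dmat] at e0 e1
    have hdet : (MvPolynomial.X 1 * MvPolynomial.X 0 - MvPolynomial.X 2 * MvPolynomial.X 3 :
        SPol) ≠ 0 := by
      intro hz
      have := congrArg (MvPolynomial.eval (fun i : Fin 4 => if i = 0 ∨ i = 1 then (1 : ℂ) else 0)) hz
      simp at this
    have k0 : (MvPolynomial.X 1 * MvPolynomial.X 0 - MvPolynomial.X 2 * MvPolynomial.X 3 : SPol) *
        symb e (f 0) = 0 := by
      linear_combination -MvPolynomial.X 0 * e0 - MvPolynomial.X 2 * e1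
    have k1 : (MvPolynomial.X 1 * MvPolynomial.X 0 - MvPolynomial.X 2 * MvPolynomial.X 3 : SPol) *
        symb e (f 1) = 0 := by
      linear_combination -MvPolynomial.X 3 * e0 - MvPolynomial.X 1 * e1
    fin_cases k
    · simpa [hdet] using k0
    · simpa [hdet] using k1
  funext k
  induction e with
  | zero => simpa [sf_neg] using hlow 0 hf k
  | succ e ih => exact ih fun k => by simpa using hlow (e + 1) hf k

theorem dbig_injective {c : ℤ} {w : Matrix (Fin 5 × Fin 2) ι Op}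
    (hw : ∀ (li : Fin 5 × Fin 2) i, w li i ∈ sf ((li.1 : ℤ) + c)) (h : dbig * w = 0) : w = 0 := by
  ext1 li i
  obtain ⟨l, a⟩ := li
  have key : ∀ b, ∑ k, dmat op b k * w (l, k) i = 0 := fun b => by
    have hb : (dbig * w) (l, b) i = 0 := by rw [h]; rfl
    rw [mul_apply, Fintype.sum_prod_type, Finset.sum_eq_single l] at hb
    · refine Eq.trans (Finset.sum_congr rfl fun k _ => ?_) hb
      simp only [dbig, if_true]
    · intro c _ hc
      refine Finset.sum_eq_zero fun k _ => ?_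
      simp only [dbig, if_neg (Ne.symm hc), zero_mul]
    · exact fun h => absurd (Finset.mem_univ _) h
  exact congrFun (dmat_injective (d := (l : ℤ) + c) (f := fun k => w (l, k) i)
    (fun k => hw (l, k) i) key) a

/-- Exactness of a pair of matrices in all degrees. -/
def Exact2 (K' : Matrix ι κ Op) (K : Matrix κ ξ Op) : Prop :=
  ∀ (d : ℤ) (x : κ → Op), (∀ i, x i ∈ sf d) → x ᵥ* K = 0 →
    ∃ y : ι → Op, (∀ i, y i ∈ sf (d - 1)) ∧ y ᵥ* K' = x

omit [Fintype ξ] in
theorem exact_rows {α : Type} {K' : Matrix ι κ Op} {K : Matrix κ ξ Op} (hex : Exact2 K' K)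
    (δ : α → ℤ) {x : Matrix α κ Op} (hx : ∀ a i, x a i ∈ sf (δ a)) (h : x * K = 0) :
    ∃ y : Matrix α ι Op, (∀ a i, y a i ∈ sf (δ a - 1)) ∧ y * K' = x := by
  choose y hy hye using fun a => hex (δ a) (x a) (hx a) (congrFun h a)
  exact ⟨fun a => y a, hy, funext fun a => hye a⟩

theorem lift_rows {j : Fin 5} {y : Matrix (Fin 5) ι Op}
    (hy : ∀ (l : Fin 5) i, y l i ∈ sf ((l : ℤ) - (j : ℤ))) :
    ∃ β : Matrix (Fin 5) ι Pair, OkV j β ∧ fstM β = y := by
  choose u hu hue using fun l i => mem_sf.mp (hy l i)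
  exact ⟨fun l i => u l i, hu, funext fun l => funext fun i => hue l i⟩

theorem fstM_injective {j : Fin 5} {β β' : Matrix (Fin 5) ι Pair} (h : OkV j β) (h' : OkV j β')
    (e : fstM β = fstM β') : β = β' := by
  ext1 l i
  exact sub_eq_zero.mp (fst_eq_zero (sub_mem (h l i) (h' l i))
    (by rw [Prod.fst_sub, sub_eq_zero]; exact congrFun (congrFun e l) i))

/-- A cycle in a middle position is a boundary. -/
theorem kernel_step {o ω : Type} [Fintype o] [Fintype ω] {jp j j' : Fin 5}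
    (h₁ : (j : ℕ) + 1 = jp) (h₂ : (j' : ℕ) + 1 = j)
    {K' : Matrix o ι Pair} {K : Matrix ι κ Pair} {L : Matrix κ ω Op}
    (hK' : Deg1 K') (hK : Deg1 K) (hKL : fstM K * L = 0)
    (hL : ∀ i c, L i c ∈ sf 1) (hex : Exact2 (fstM K') (fstM K)) (hex' : Exact2 (fstM K) L)
    {z : ι → Alg} (hz : z ∈ term j ι) (hcyc : step j j' K z = 0) :
    ∃ y ∈ term jp o, step jp j K' y = z := by
  obtain ⟨β, μ, hβ, hμ, rfl⟩ := exists_emb hz
  rw [step_emb h₂ hK hβ hμ, emb_eq_zero (hβ.mul_deg1 h₂ hK) (hμ.mul_deg1 h₂ hK)] at hcyc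
  obtain ⟨hb0, w, hw, hμw⟩ := hcyc
  obtain ⟨yb, hyb, hybe⟩ := exact_rows hex (fun l : Fin 5 => (l : ℤ) - (j : ℤ))
    (x := fstM β) (fun l i => mem_sf.mpr ⟨_, hβ l i, rfl⟩)
    (by rw [← fstM_mul, hb0]; rfl)
  obtain ⟨β', hβ', hβ'e⟩ := lift_rows (j := jp) (y := yb)
    (fun l i => sf_mono (by omega) (hyb l i))
  have hβeq : β' * K' = β := fstM_injective (hβ'.mul_deg1 h₁ hK') hβ (by
    rw [fstM_mul, hβ'e, hybe])
  have hwL : w * L = 0 := by
    refine dbig_injective (c := 1 - (j' : ℤ)) (fun li c => ?_) ?_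
    · rw [mul_apply]
      exact Submodule.sum_mem _ fun i _ => sf_mono (by omega) (mul_mem_sf (hw li i) (hL i c))
    · rw [← Matrix.mul_assoc, ← hμw, Matrix.mul_assoc, hKL, Matrix.mul_zero]
  obtain ⟨y, hy, hye⟩ := exact_rows hex' (fun li : Fin 5 × Fin 2 => (li.1 : ℤ) - (j' : ℤ))
    (x := w) (fun li i => sf_mono (by omega) (hw li i)) hwL
  have hy0 : OkW 0 j y := fun li i => sf_mono (by omega) (hy li i)
  obtain ⟨μ', hμ', hμ'e⟩ := exact_rows hex
    (fun li : Fin 5 × Fin 2 => (li.1 : ℤ) + 1 - (j : ℤ)) (x := μ - dbig * y)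
    (fun li i => hμ.sub hy0.dbig_mul li i)
    (by rw [Matrix.sub_mul, Matrix.mul_assoc, hye, hμw, sub_self])
  have hμ'0 : OkW 1 jp μ' := fun li i => sf_mono (by omega) (hμ' li i)
  refine ⟨emb jp β' μ', emb_mem_term hβ' hμ'0, ?_⟩
  rw [step_emb h₁ hK' hβ' hμ'0, hβeq, hμ'e, ← sub_eq_zero]
  have hsub : emb j β (μ - dbig * y) - emb j β μ = emb j (0 : Matrix (Fin 5) ι Pair) (-(dbig * y)) := by
    rw [sub_eq_iff_eq_add, emb_add (OkV.zero j) hy0.dbig_mul.neg hβ hμ,
      zero_add, neg_add_eq_sub]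
  rw [hsub, emb_eq_zero (OkV.zero j) hy0.dbig_mul.neg]
  exact ⟨rfl, -y, fun li i => neg_mem (hy0 li i), (Matrix.mul_neg _ _).symm⟩

/-- The top differential is injective. -/
theorem kernel_top {ω : Type} [Fintype ω] {j j' : Fin 5} (h₂ : (j' : ℕ) + 1 = j)
    {K : Matrix ι κ Pair} {L : Matrix κ ω Op} (hK : Deg1 K) (hKL : fstM K * L = 0)
    (hL : ∀ i c, L i c ∈ sf 1) (hex' : Exact2 (fstM K) L)
    (hinj : ∀ (d : ℤ) (x : ι → Op), (∀ i, x i ∈ sf d) → x ᵥ* fstM K = 0 → x = 0)
    {z : ι → Alg} (hz : z ∈ term j ι) (hcyc : step j j' K z = 0) : z = 0 := by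
  obtain ⟨β, μ, hβ, hμ, rfl⟩ := exists_emb hz
  rw [step_emb h₂ hK hβ hμ, emb_eq_zero (hβ.mul_deg1 h₂ hK) (hμ.mul_deg1 h₂ hK)] at hcyc
  obtain ⟨hb0, w, hw, hμw⟩ := hcyc
  have hb : fstM β * fstM K = 0 := by rw [← fstM_mul, hb0]; rfl
  have hβ0 : β = 0 := fstM_injective hβ (OkV.zero j) (funext fun l =>
    hinj ((l : ℤ) - (j : ℤ)) (fstM β l) (fun i => mem_sf.mpr ⟨_, hβ l i, rfl⟩) (congrFun hb l))
  have hwL : w * L = 0 := by
    refine dbig_injective (c := 1 - (j' : ℤ)) (fun li c => ?_) ?_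
    · rw [mul_apply]
      exact Submodule.sum_mem _ fun i _ => sf_mono (by omega) (mul_mem_sf (hw li i) (hL i c))
    · rw [← Matrix.mul_assoc, ← hμw, Matrix.mul_assoc, hKL, Matrix.mul_zero]
  obtain ⟨y, hy, hye⟩ := exact_rows hex' (fun li : Fin 5 × Fin 2 => (li.1 : ℤ) - (j' : ℤ))
    (x := w) (fun li i => sf_mono (by omega) (hw li i)) hwL
  have hy0 : OkW 0 j y := fun li i => sf_mono (by omega) (hy li i)
  rw [emb_eq_zero hβ hμ]
  refine ⟨hβ0, y, hy0, ?_⟩
  have hz0 : (μ - dbig * y) * fstM K = 0 := by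
    rw [Matrix.sub_mul, Matrix.mul_assoc, hye, hμw, sub_self]
  ext1 li i
  have := hinj ((li.1 : ℤ) + 1 - (j : ℤ)) ((μ - dbig * y) li)
    (fun i => hμ.sub hy0.dbig_mul li i) (congrFun hz0 li)
  exact sub_eq_zero.mp (congrFun this i)

end Vale.Agent.P176
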