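import Mathlib.LinearAlgebra.Matrix.Notation
import Mathlib.Tactic.NoncommRing
import Mathlib.Tactic.FinCases
import Mathlib.Algebra.Algebra.Prod
import Mathlib.Data.Matrix.Basic

/-! Relations of `gl₂`, the twist `X`, the matrix `D` and the Chevalley-Eilenberg matrices,
all in an arbitrary ring with four marked elements. -/

namespace Vale.Agent.P176

/-- Four elements satisfying the commutation relations of `E₁₁, E₂₂, E₁₂, E₂₁`. -/
structure GlRel {R : Type*} [Ring R] (z : Fin 4 → R) : Prop where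
  r01 : z 0 * z 1 = z 1 * z 0
  r02 : z 0 * z 2 = z 2 * z 0 + z 2
  r03 : z 0 * z 3 = z 3 * z 0 - z 3
  r12 : z 1 * z 2 = z 2 * z 1 - z 2
  r13 : z 1 * z 3 = z 3 * z 1 + z 3
  r23 : z 2 * z 3 = z 3 * z 2 + z 0 - z 1

variable {R : Type*} [Ring R] (z : Fin 4 → R)

/-- The contragredient twist of the four generators. -/
def twist : Fin 4 → Matrix (Fin 2) (Fin 2) R :=
  ![!![z 0 - 1, 0; 0, z 0], !![z 1, 0; 0, z 1 - 1], !![z 2, 0; -1, z 2], !![z 3, -1; 0, z 3]]

/-- The matrix `(E i j) - (E₁₁ + E₂₂ + 1)`. -/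
def dmat : Matrix (Fin 2) (Fin 2) R :=
  !![-(z 1 + 1), z 2; z 3, -(z 0 + 1)]

variable {z}

theorem GlRel.twist (h : GlRel z) : GlRel (twist z) := by
  obtain ⟨r01, r02, r03, r12, r13, r23⟩ := h
  constructor <;> ext i j <;> fin_cases i <;> fin_cases j <;>
    simp [Vale.Agent.P176.twist, Matrix.mul_apply, Fin.sum_univ_two, sub_mul, mul_sub,
      Matrix.vecHead, Matrix.vecTail, r01, r02, r03, r12, r13, r23] <;>
    (try abel)

theorem GlRel.dmat_commute (h : GlRel z) (a : Fin 4) :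
    Vale.Agent.P176.twist z a * dmat z = dmat z * Vale.Agent.P176.twist z a := by
  obtain ⟨r01, r02, r03, r12, r13, r23⟩ := h
  ext i j
  fin_cases a <;> fin_cases i <;> fin_cases j <;>
    simp [Vale.Agent.P176.twist, dmat, Matrix.mul_apply, Fin.sum_univ_two, sub_mul, mul_sub,
      mul_add, add_mul, Matrix.vecHead, Matrix.vecTail, r01, r02, r03, r12, r13, r23] <;>
    (try abel)

theorem GlRel.prod {S : Type*} [Ring S] {w : Fin 4 → S} (h : GlRel z) (h' : GlRel w) :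
    GlRel fun a => (z a, w a) := by
  constructor <;>
    simp [Prod.ext_iff, h.r01, h.r02, h.r03, h.r12, h.r13, h.r23, h'.r01, h'.r02, h'.r03, h'.r12,
      h'.r13, h'.r23]

/-- First Chevalley-Eilenberg matrix. -/
def ce1 (z : Fin 4 → R) : Matrix (Fin 4) (Fin 1) R := !![z 0; z 1; z 2; z 3]

/-- Second matrix; rows are the pairs 01, 02, 03, 12, 13, 23. -/
def ce2 (z : Fin 4 → R) : Matrix (Fin 6) (Fin 4) R :=
  !![-z 1, z 0, 0, 0;
     -z 2, 0, z 0 - 1, 0;
     -z 3, 0, 0, z 0 + 1;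
     0, -z 2, z 1 + 1, 0;
     0, -z 3, 0, z 1 - 1;
     -1, 1, -z 3, z 2]

/-- Third matrix; rows are the triples 012, 013, 023, 123. -/
def ce3 (z : Fin 4 → R) : Matrix (Fin 4) (Fin 6) R :=
  !![z 2, -z 1 - 1, 0, z 0 - 1, 0, 0;
     z 3, 0, -z 1 + 1, 0, z 0 + 1, 0;
     -1, z 3, -z 2, 0, 0, z 0;
     -1, 0, 0, z 3, -z 2, z 1]

/-- Fourth matrix. -/
def ce4 (z : Fin 4 → R) : Matrix (Fin 1) (Fin 4) R := !![-z 3, z 2, -z 1, z 0]

theorem GlRel.ce2_ce1 (h : GlRel z) : ce2 z * ce1 z = 0 := by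
  obtain ⟨r01, r02, r03, r12, r13, r23⟩ := h
  ext i j
  fin_cases i <;> fin_cases j <;>
    simp [ce1, ce2, Matrix.mul_apply, Fin.sum_univ_four, sub_mul, mul_sub, mul_add, add_mul,
      Matrix.vecHead, Matrix.vecTail, r01, r02, r03, r12, r13, r23] <;>
    (try abel)

theorem GlRel.ce3_ce2 (h : GlRel z) : ce3 z * ce2 z = 0 := by
  obtain ⟨r01, r02, r03, r12, r13, r23⟩ := h
  ext i j
  fin_cases i <;> fin_cases j <;>
    simp [ce2, ce3, Matrix.mul_apply, Fin.sum_univ_six, sub_mul, mul_sub, mul_add, add_mul,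
      Matrix.vecHead, Matrix.vecTail, r01, r02, r03, r12, r13, r23] <;>
    (try abel)

theorem GlRel.ce4_ce3 (h : GlRel z) : ce4 z * ce3 z = 0 := by
  obtain ⟨r01, r02, r03, r12, r13, r23⟩ := h
  ext i j
  fin_cases i <;> fin_cases j <;>
    simp [ce3, ce4, Matrix.mul_apply, Fin.sum_univ_four, sub_mul, mul_sub, mul_add, add_mul,
      Matrix.vecHead, Matrix.vecTail, r01, r02, r03, r12, r13, r23] <;>
    (try abel)

end Vale.Agent.P176
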