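import Vale.Agent.P176.Coord
import Mathlib.Algebra.Module.Submodule.Pointwise

/-! The modules `Y n`, the extension `G n`, and the maps between them. -/

noncomputable section

namespace Vale.Agent.P176

open Matrix

/-- A subspace of `Pol` stable under all operators in use. -/
def Stable (V : Submodule ℂ Pol) : Prop :=
  ∀ (d : ℤ) (x : Op) (f : Pol), x ∈ sf d → f ∈ V → x f ∈ V

theorem stable_vs (n : ℕ) : Stable (vs n) := fun _ _ _ hx hf => sf_mem_vs hx hf

theorem stable_vp (n : ℕ) : Stable (vp n) := fun _ _ _ hx hf => sf_mem_vp hx hf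

/-- Five copies of a subspace. -/
def lev (V : Submodule ℂ Pol) : Submodule ℂ (Fin 5 → Pol) :=
  Submodule.pi Set.univ fun _ => V

theorem mem_lev {V : Submodule ℂ Pol} {f : Fin 5 → Pol} : f ∈ lev V ↔ ∀ l, f l ∈ V := by
  simp [lev, Submodule.mem_pi]

/-- Action of the lower diagonal block. -/
def botAct (g : Big) : Module.End ℂ (Fin 5 → Pol) where
  toFun f l := ∑ j, g (Sum.inr l) (Sum.inr j) (f j)
  map_add' f f' := funext fun l => by simp [Finset.sum_add_distrib]
  map_smul' c f := funext fun l => by simp [Finset.smul_sum]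

theorem botAct_blk (b : BMat) (m : MMat) (f : Fin 5 → Pol) (l : Fin 5) :
    botAct (blk b m) f l = ∑ j, (b l j).1 (f j) := rfl

theorem grp_inr_inl (g : grp) (l : Fin 5) (p : Fin 5 × Fin 2) :
    (g : Big) (Sum.inr l) (Sum.inl p) = 0 := by
  obtain ⟨_, b, m, hb, hm, rfl⟩ := g
  rfl

theorem botAct_mul (g h : grp) : botAct ((g * h : grp) : Big) = botAct g * botAct h := by
  refine LinearMap.ext fun f => funext fun l => ?_
  rw [Subalgebra.coe_mul]
  simp only [botAct, Module.End.mul_apply, LinearMap.coe_mk, AddHom.coe_mk, mul_apply,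
    Fintype.sum_sum_type, grp_inr_inl, zero_mul, Finset.sum_const_zero, zero_add,
    LinearMap.sum_apply, map_sum]
  exact Finset.sum_comm

theorem botAct_one : botAct 1 = 1 := by
  refine LinearMap.ext fun f => funext fun l => ?_
  simp only [botAct, LinearMap.coe_mk, AddHom.coe_mk, Module.End.one_apply]
  rw [Finset.sum_eq_single l (fun j _ hj => by simp [hj.symm]) (by simp)]
  simp

theorem botAct_mem {V : Submodule ℂ Pol} (hV : Stable V) (g : grp) :
    ∀ f ∈ lev V, botAct g f ∈ lev V := fun f hf =>
  mem_lev.mpr fun l => by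
    show ∑ j, (g : Big) (Sum.inr l) (Sum.inr j) (f j) ∈ V
    exact Submodule.sum_mem _ fun j _ => hV 5 _ _ (grp_entry_mem g _ _) (mem_lev.mp hf j)

/-- The representation on five copies of `V`. -/
def botHom {V : Submodule ℂ Pol} (hV : Stable V) : grp →+* Module.End ℂ (lev V) where
  toFun g := (botAct g).restrict (botAct_mem hV g)
  map_one' := LinearMap.ext fun f => Subtype.ext <| by
    rw [LinearMap.coe_restrict_apply, OneMemClass.coe_one, botAct_one]; rfl
  map_mul' g h := LinearMap.ext fun f => Subtype.ext <| by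
    rw [LinearMap.coe_restrict_apply, botAct_mul]; rfl
  map_zero' := LinearMap.ext fun f => Subtype.ext <| funext fun l => by
    simp [botAct]
  map_add' g h := LinearMap.ext fun f => Subtype.ext <| funext fun l => by
    simp [botAct, Finset.sum_add_distrib]

theorem botHom_kill {V : Submodule ℂ Pol} (hV : Stable V) :
    ∀ g ∈ idl, botHom hV g = 0 := by
  rintro g ⟨w, hw, hg⟩
  refine LinearMap.ext fun f => Subtype.ext <| funext fun l => ?_
  simp [botHom, hg, botAct_blk]

/-- The representation of the algebra. -/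
def levHom {V : Submodule ℂ Pol} (hV : Stable V) : Alg →+* Module.End ℂ (lev V) :=
  Ideal.Quotient.lift idl (botHom hV) (botHom_kill hV)

/-- Five copies of `V` as a module, `M` acting by zero. -/
def LMod (V : Submodule ℂ Pol) (_hV : Stable V) : Type := lev V

instance (V : Submodule ℂ Pol) (hV : Stable V) : AddCommGroup (LMod V hV) :=
  inferInstanceAs (AddCommGroup (lev V))

instance (V : Submodule ℂ Pol) (hV : Stable V) : Module Alg (LMod V hV) :=
  Module.compHom (lev V) (levHom hV)

namespace LMod

variable {V : Submodule ℂ Pol} {hV : Stable V}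

/-- Coordinates. -/
def val (f : LMod V hV) : Fin 5 → Pol := (show lev V from f).1

theorem val_mem (f : LMod V hV) (l : Fin 5) : f.val l ∈ V :=
  mem_lev.mp (show lev V from f).2 l

/-- Constructor. -/
def mk (f : Fin 5 → Pol) (hf : ∀ l, f l ∈ V) : LMod V hV :=
  (show lev V from ⟨f, mem_lev.mpr hf⟩)

theorem val_mk (f : Fin 5 → Pol) (hf : ∀ l, f l ∈ V) : (mk (hV := hV) f hf).val = f := rfl

theorem ext {f g : LMod V hV} (h : f.val = g.val) : f = g :=
  Subtype.ext (p := fun x => x ∈ lev V) h

theorem val_add (f g : LMod V hV) : (f + g).val = f.val + g.val := rfl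

theorem val_zero : (0 : LMod V hV).val = 0 := rfl

theorem val_smul {b : BMat} {m : MMat} (hb : OkB b) (hm : OkM 1 m) (f : LMod V hV) (l : Fin 5) :
    (mkA b m • f).val l = ∑ j, (b l j).1 (f.val j) := by
  rw [mkA_of hb hm]
  rfl

end LMod

/-- The module `Y n`. -/
abbrev Ym (n : ℕ) : Type := LMod (vs n) (stable_vs n)

/-- The module `Y (n-1)`, zero for `n = 0`. -/
abbrev YP (n : ℕ) : Type := LMod (vp n) (stable_vp n)

theorem contr_add (f g : Fin 2 → Pol) : contr (f + g) = contr f + contr g := by
  simp [contr]; abel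

theorem contr_smul (c : ℂ) (f : Fin 2 → Pol) : contr (c • f) = c • contr f := by
  simp [contr, smul_add]

theorem contr_sum {α : Type} (s : Finset α) (f : α → Fin 2 → Pol) :
    contr (∑ a ∈ s, f a) = ∑ a ∈ s, contr (f a) := by
  simp [contr, Finset.sum_apply, Finset.sum_add_distrib]

/-- The off-diagonal block followed by the contraction. -/
def offAct (g : Big) (v : Fin 5 → Pol) (l : Fin 5) : Pol :=
  contr fun a => ∑ j, g (Sum.inl (l, a)) (Sum.inr j) (v j)

theorem offAct_mem {n : ℕ} (g : grp) {v : Fin 5 → Pol} (hv : ∀ l, v l ∈ vs n) (l : Fin 5) :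
    offAct g v l ∈ vp n :=
  contr_mem fun _ => Submodule.sum_mem _ fun j _ => sf_mem_vs (grp_entry_mem g _ _) (hv j)

theorem offAct_mul (g h : grp) (v : Fin 5 → Pol) (l : Fin 5) :
    offAct ((g * h : grp) : Big) v l =
      botAct g (offAct h v) l + offAct g (botAct h v) l := by
  obtain ⟨_, b, m, hb, hm, rfl⟩ := g
  obtain ⟨_, c, m', hc, hm', rfl⟩ := h
  rw [Subalgebra.coe_mul, botAct_blk]
  have hA : ∀ j, (b l j).1 (offAct (blk c m') v j) =
      contr (app (b l j).2 fun a => ∑ k, m' (j, a) k (v k)) := fun j => by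
    rw [contr_word (hb l j)]; rfl
  simp only [hA]
  rw [← contr_sum, offAct, offAct, ← contr_add, blk_mul]
  congr 1
  funext a
  simp only [blk, fromBlocks_apply₁₂, fromBlocks_apply₂₂, Matrix.add_apply, LinearMap.add_apply,
    Finset.sum_add_distrib, Pi.add_apply, Finset.sum_apply, app, botAct, LinearMap.coe_mk,
    AddHom.coe_mk, mul_apply, LinearMap.sum_apply, Module.End.mul_apply, map_sum]
  congr 1
  · rw [Finset.sum_comm, Fintype.sum_prod_type]
    rfl
  · exact Finset.sum_comm

/-- Pairs of level families. -/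
abbrev GCar (n : ℕ) : Type := lev (vp n) × lev (vs n)

/-- The action on the extension. -/
def gEnd (n : ℕ) (g : grp) : Module.End ℂ (GCar n) where
  toFun x := (⟨botAct g x.1.1 + offAct g x.2.1, mem_lev.mpr fun l =>
      add_mem (mem_lev.mp (botAct_mem (stable_vp n) g _ x.1.2) l)
        (offAct_mem g (mem_lev.mp x.2.2) l)⟩,
    ⟨botAct g x.2.1, botAct_mem (stable_vs n) g _ x.2.2⟩)
  map_add' x y := by
    refine Prod.ext (Subtype.ext (funext fun l => ?_)) (Subtype.ext ?_)
    · simp [offAct, Finset.sum_add_distrib, ← contr_add, contr]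
      abel
    · simp
  map_smul' c x := by
    refine Prod.ext (Subtype.ext (funext fun l => ?_)) (Subtype.ext ?_)
    · simp [offAct, ← Finset.smul_sum, contr, smul_add]
    · simp

/-- The action as a ring homomorphism. -/
def gHom (n : ℕ) : grp →+* Module.End ℂ (GCar n) where
  toFun := gEnd n
  map_one' := by
    refine LinearMap.ext fun x => Prod.ext (Subtype.ext (funext fun l => ?_)) (Subtype.ext ?_)
    · simp [gEnd, botAct_one, offAct, contr]
    · simp [gEnd, botAct_one]
  map_mul' g h := by
    refine LinearMap.ext fun x => Prod.ext (Subtype.ext (funext fun l => ?_)) (Subtype.ext ?_)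
    · show botAct ((g * h : grp) : Big) x.1.1 l + offAct ((g * h : grp) : Big) x.2.1 l =
        botAct g (botAct h x.1.1 + offAct h x.2.1) l + offAct g (botAct h x.2.1) l
      rw [botAct_mul, offAct_mul, map_add, Pi.add_apply, Module.End.mul_apply]
      abel
    · show botAct ((g * h : grp) : Big) x.2.1 = botAct g (botAct h x.2.1)
      rw [botAct_mul]; rfl
  map_zero' := by
    refine LinearMap.ext fun x => Prod.ext (Subtype.ext (funext fun l => ?_)) (Subtype.ext ?_)
    · simp [gEnd, botAct, offAct, contr]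
    · funext l; simp [gEnd, botAct]
  map_add' g h := by
    refine LinearMap.ext fun x => Prod.ext (Subtype.ext (funext fun l => ?_)) (Subtype.ext ?_)
    · simp [gEnd, botAct, offAct, Finset.sum_add_distrib, contr]
      abel
    · funext l; simp [gEnd, botAct, Finset.sum_add_distrib]

theorem gHom_kill (n : ℕ) : ∀ g ∈ idl, gHom n g = 0 := by
  rintro g ⟨w, hw, hg⟩
  refine LinearMap.ext fun x => Prod.ext (Subtype.ext (funext fun l => ?_)) (Subtype.ext ?_)
  · show botAct g x.1.1 l + offAct g x.2.1 l = 0
    rw [hg, botAct_blk]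
    have h0 : ∀ j, ((0 : BMat) l j).1 (x.1.1 j) = 0 := fun j => rfl
    simp only [h0, Finset.sum_const_zero, zero_add]
    set f : Fin 2 → Pol := fun a => ∑ j, w (l, a) j (x.2.1 j) with hf
    have hf' : ∀ a, f a ∈ vs n := fun a =>
      Submodule.sum_mem _ fun j _ => sf_mem_vs (hw (l, a) j) (mem_lev.mp x.2.2 j)
    have : offAct (blk 0 (dbig * w)) x.2.1 l = contr (app (dmat op) f) := by
      rw [offAct]
      congr 1
      funext a
      simp only [blk, fromBlocks_apply₁₂, app, hf, map_sum, mul_apply, LinearMap.sum_apply,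
        Module.End.mul_apply, Fintype.sum_prod_type]
      rw [Finset.sum_comm (γ := Fin 2)]
      refine Finset.sum_congr rfl fun j _ => ?_
      rw [Finset.sum_eq_single l (fun c _ hc => Finset.sum_eq_zero fun k _ => by
        simp [dbig, Ne.symm hc]) (fun h => absurd (Finset.mem_univ _) h)]
      simp [dbig]
    rw [this]
    have hd : app (dmat op) f = incl (contr f) + ((-1 : ℂ) * ((n + 1 : ℕ) : ℂ)) • f :=
      funext fun a => by
        rw [app_dmat hf' a]
        simp [sub_eq_add_neg, add_smul]
    rw [hd, contr_add, contr_smul, contr_incl (contr_mem hf'), ← add_smul]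
    simp
  · funext l
    show botAct g x.2.1 l = 0
    rw [hg, botAct_blk]
    exact Finset.sum_eq_zero fun j _ => rfl

/-- The extension of `Y n` by `Y (n-1)`. -/
def GMod (n : ℕ) : Type := GCar n

instance (n : ℕ) : AddCommGroup (GMod n) := inferInstanceAs (AddCommGroup (GCar n))

instance (n : ℕ) : Module Alg (GMod n) :=
  Module.compHom (GCar n) (Ideal.Quotient.lift idl (gHom n) (gHom_kill n))

namespace GMod

variable {n : ℕ}

/-- The sub part. -/
def sub (x : GMod n) : YP n := (show GCar n from x).1

/-- The quotient part. -/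
def quo (x : GMod n) : Ym n := (show GCar n from x).2

/-- Constructor. -/
def mk (w : YP n) (v : Ym n) : GMod n := (show GCar n from (w, v))

theorem ext {x y : GMod n} (h₁ : x.sub = y.sub) (h₂ : x.quo = y.quo) : x = y :=
  show (show GCar n from x) = (show GCar n from y) from Prod.ext h₁ h₂

theorem sub_smul {b : BMat} {m : MMat} (hb : OkB b) (hm : OkM 1 m) (x : GMod n) (l : Fin 5) :
    (mkA b m • x).sub.val l = (∑ j, (b l j).1 (x.sub.val j)) +
      contr fun a => ∑ j, m (l, a) j (x.quo.val j) := by
  rw [mkA_of hb hm]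
  rfl

theorem quo_smul (a : Alg) (x : GMod n) : (a • x).quo = a • x.quo := by
  obtain ⟨g, rfl⟩ := Ideal.Quotient.mk_surjective a
  rfl

/-- The projection to `Y n`. -/
def proj (n : ℕ) : GMod n →ₗ[Alg] Ym n where
  toFun := quo
  map_add' _ _ := rfl
  map_smul' a x := quo_smul a x

/-- The inclusion of `Y (n-1)`. -/
def inj (n : ℕ) : YP n →ₗ[Alg] GMod n where
  toFun w := mk w 0
  map_add' w w' := ext rfl (add_zero _).symm
  map_smul' a w := by
    obtain ⟨g, rfl⟩ := Ideal.Quotient.mk_surjective a
    refine ext (LMod.ext (funext fun l => ?_)) (LMod.ext (funext fun l => ?_))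
    · show botAct g w.val l = botAct g w.val l + offAct g (0 : Fin 5 → Pol) l
      simp [offAct, contr]
    · show (0 : Fin 5 → Pol) l = botAct g (0 : Fin 5 → Pol) l
      simp [botAct]

theorem proj_surjective : Function.Surjective (proj n) := fun v => ⟨mk 0 v, rfl⟩

theorem inj_injective : Function.Injective (inj n) := fun _ _ h => congrArg sub h

theorem ker_proj : LinearMap.ker (proj n) = LinearMap.range (inj n) := by
  ext x
  rw [LinearMap.mem_ker, LinearMap.mem_range]
  exact ⟨fun h => ⟨x.sub, ext rfl h.symm⟩, by rintro ⟨w, rfl⟩; rfl⟩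

end GMod

end Vale.Agent.P176
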