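import Vale.Agent.P176.Gl
import Mathlib.Algebra.MvPolynomial.Derivation
import Mathlib.Algebra.MvPolynomial.PDeriv
import Mathlib.RingTheory.MvPolynomial.Homogeneous
import Mathlib.Data.Complex.Basic
import Mathlib.Algebra.Module.LinearMap.End
import Mathlib.RingTheory.Derivation.Lie
import Mathlib.Data.Set.Finite.List

/-! `gl₂` as differential operators on polynomials in four variables. -/

noncomputable section

namespace Vale.Agent.P176

open MvPolynomial

/-- Polynomials in four variables over `ℂ`. -/
abbrev Pol : Type := MvPolynomial (Fin 4) ℂ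

/-- Operators on `Pol`. -/
abbrev Op : Type := Module.End ℂ Pol

/-- The derivations `E₁₁, E₂₂, E₁₂, E₂₁`. -/
def dv (a : Fin 4) : Derivation ℂ Pol Pol :=
  mkDerivation ℂ ((![![1 + X 0, 0, 0, X 3], ![0, 1 + X 1, X 2, 0],
    ![0, X 3, 1 + X 0, 0], ![X 2, 0, 0, 1 + X 1]] : Fin 4 → Fin 4 → Pol) a)

/-- The operators `E₁₁, E₂₂, E₁₂, E₂₁`. -/
def op (a : Fin 4) : Op := (dv a).toLinearMap

theorem op_apply (a : Fin 4) (f : Pol) : op a f = dv a f := rfl

theorem op_rel_of_X {a b : Fin 4} {e : Derivation ℂ Pol Pol}
    (h : ∀ i, dv a (dv b (X i)) - dv b (dv a (X i)) = e (X i)) :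
    op a * op b = op b * op a + e.toLinearMap := by
  have he : ⁅dv a, dv b⁆ = e := derivation_ext fun i => by
    rw [Derivation.commutator_apply]
    exact h i
  refine LinearMap.ext fun f => ?_
  rw [LinearMap.add_apply, Module.End.mul_apply, Module.End.mul_apply, ← he]
  simp only [Derivation.coeFn_coe, op_apply, Derivation.commutator_apply]
  abel

theorem op_rel : GlRel op := by
  constructor
  · have h := op_rel_of_X (a := 0) (b := 1) (e := 0) (fun i => by
      fin_cases i <;> simp [dv, mkDerivation_X])
    simpa using h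
  · exact op_rel_of_X (a := 0) (b := 2) (e := dv 2) (fun i => by
      fin_cases i <;> simp [dv, mkDerivation_X])
  · have h := op_rel_of_X (a := 0) (b := 3) (e := -dv 3) (fun i => by
      fin_cases i <;> simp [dv, mkDerivation_X])
    rw [h]
    refine LinearMap.ext fun f => ?_
    simp [op, sub_eq_add_neg]
  · have h := op_rel_of_X (a := 1) (b := 2) (e := -dv 2) (fun i => by
      fin_cases i <;> simp [dv, mkDerivation_X])
    rw [h]
    refine LinearMap.ext fun f => ?_
    simp [op, sub_eq_add_neg]
  · exact op_rel_of_X (a := 1) (b := 3) (e := dv 3) (fun i => by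
      fin_cases i <;> simp [dv, mkDerivation_X])
  · have h := op_rel_of_X (a := 2) (b := 3) (e := dv 0 - dv 1) (fun i => by
      fin_cases i <;> simp [dv, mkDerivation_X])
    rw [h, add_sub_assoc]
    rfl

/-- Operators paired with their twists. -/
abbrev Pair : Type := Op × Matrix (Fin 2) (Fin 2) Op

/-- The four generators as pairs. -/
def gen (a : Fin 4) : Pair := (op a, twist op a)

theorem gen_rel : GlRel gen := op_rel.prod op_rel.twist

/-- Product of generators along a word. -/
def word (l : List (Fin 4)) : Pair := (l.map gen).prod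

/-- Span of words of length at most `d`. -/
def fil (d : ℤ) : Submodule ℂ Pair :=
  Submodule.span ℂ (word '' {l : List (Fin 4) | (l.length : ℤ) ≤ d})

theorem word_mem {l : List (Fin 4)} {d : ℤ} (h : (l.length : ℤ) ≤ d) : word l ∈ fil d :=
  Submodule.subset_span ⟨l, h, rfl⟩

theorem fil_mono {d d' : ℤ} (h : d ≤ d') : fil d ≤ fil d' :=
  Submodule.span_mono (Set.image_mono fun _ hl => le_trans hl h)

theorem fil_neg {d : ℤ} (h : d < 0) : fil d = ⊥ := by
  rw [fil, Submodule.span_eq_bot]
  rintro x ⟨l, hl, rfl⟩
  exact absurd (le_trans (Int.natCast_nonneg _) hl) (by omega)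

theorem one_mem_fil {d : ℤ} (h : 0 ≤ d) : (1 : Pair) ∈ fil d := word_mem (l := []) (by simpa)

theorem gen_mem_fil (a : Fin 4) {d : ℤ} (h : 1 ≤ d) : gen a ∈ fil d := by
  have := word_mem (l := [a]) (d := d) (by simpa)
  simpa [word] using this

theorem mul_mem_fil {a b : ℤ} {x y : Pair} (hx : x ∈ fil a) (hy : y ∈ fil b) :
    x * y ∈ fil (a + b) := by
  induction hx using Submodule.span_induction with
  | mem x hx =>
    obtain ⟨l, hl, rfl⟩ := hx
    induction hy using Submodule.span_induction with
    | mem y hy =>
      obtain ⟨l', hl', rfl⟩ := hy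
      have : word l * word l' = word (l ++ l') := by simp [word]
      rw [this]
      exact word_mem (by
        simp only [List.length_append, Nat.cast_add]
        exact add_le_add hl hl')
    | zero => simp
    | add _ _ _ _ h h' => rw [mul_add]; exact add_mem h h'
    | smul c _ _ h => rw [mul_smul_comm]; exact Submodule.smul_mem _ c h
  | zero => simp
  | add _ _ _ _ h h' => rw [add_mul]; exact add_mem h h'
  | smul c _ _ h => rw [smul_mul_assoc]; exact Submodule.smul_mem _ c h

theorem gen_comm_mem (a b : Fin 4) : gen a * gen b - gen b * gen a ∈ fil 1 := by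
  have g : ∀ c, gen c ∈ fil 1 := fun c => gen_mem_fil c le_rfl
  have o01 : gen 0 * gen 1 - gen 1 * gen 0 ∈ fil 1 := by rw [gen_rel.r01, sub_self]; exact zero_mem _
  have o02 : gen 0 * gen 2 - gen 2 * gen 0 ∈ fil 1 := by
    rw [gen_rel.r02, add_sub_cancel_left]; exact g 2
  have o03 : gen 0 * gen 3 - gen 3 * gen 0 ∈ fil 1 := by
    rw [gen_rel.r03, sub_sub_cancel_left]; exact neg_mem (g 3)
  have o12 : gen 1 * gen 2 - gen 2 * gen 1 ∈ fil 1 := by
    rw [gen_rel.r12, sub_sub_cancel_left]; exact neg_mem (g 2)
  have o13 : gen 1 * gen 3 - gen 3 * gen 1 ∈ fil 1 := by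
    rw [gen_rel.r13, add_sub_cancel_left]; exact g 3
  have o23 : gen 2 * gen 3 - gen 3 * gen 2 ∈ fil 1 := by
    rw [gen_rel.r23, show gen 3 * gen 2 + gen 0 - gen 1 - gen 3 * gen 2 = gen 0 - gen 1 by abel]
    exact sub_mem (g 0) (g 1)
  rcases lt_trichotomy a b with h | h | h
  · match a, b, h with
    | 0, 1, _ => exact o01
    | 0, 2, _ => exact o02
    | 0, 3, _ => exact o03
    | 1, 2, _ => exact o12
    | 1, 3, _ => exact o13
    | 2, 3, _ => exact o23
    | 3, y, h => exact absurd h (not_lt.mpr (Fin.le_last y))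
    | 1, 0, h => exact absurd h (by decide)
    | 1, 1, h => exact absurd h (by decide)
    | 2, 0, h => exact absurd h (by decide)
    | 2, 1, h => exact absurd h (by decide)
    | 2, 2, h => exact absurd h (by decide)
    | 0, 0, h => exact absurd h (by decide)
  · rw [h, sub_self]; exact zero_mem _
  · rw [← neg_sub]
    refine neg_mem ?_
    match b, a, h with
    | 0, 1, _ => exact o01
    | 0, 2, _ => exact o02
    | 0, 3, _ => exact o03
    | 1, 2, _ => exact o12
    | 1, 3, _ => exact o13
    | 2, 3, _ => exact o23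
    | 3, y, h => exact absurd h (not_lt.mpr (Fin.le_last y))
    | 1, 0, h => exact absurd h (by decide)
    | 1, 1, h => exact absurd h (by decide)
    | 2, 0, h => exact absurd h (by decide)
    | 2, 1, h => exact absurd h (by decide)
    | 2, 2, h => exact absurd h (by decide)
    | 0, 0, h => exact absurd h (by decide)

theorem word_perm {l l' : List (Fin 4)} (h : l.Perm l') :
    word l - word l' ∈ fil ((l.length : ℤ) - 1) := by
  induction h with
  | nil => simp
  | @cons x l₁ l₂ h ih =>
    have : word (x :: l₁) - word (x :: l₂) = gen x * (word l₁ - word l₂) := by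
      simp [word, mul_sub]
    rw [this]
    refine fil_mono (le_of_eq ?_) (mul_mem_fil (gen_mem_fil x le_rfl) ih)
    push_cast [List.length_cons]
    ring
  | swap x y l₀ =>
    have : word (y :: x :: l₀) - word (x :: y :: l₀) = (gen y * gen x - gen x * gen y) * word l₀ := by
      simp [word, sub_mul, mul_assoc]
    rw [this]
    refine fil_mono (le_of_eq ?_) (mul_mem_fil (gen_comm_mem y x) (word_mem le_rfl))
    push_cast [List.length_cons]
    ring
  | @trans l₁ l₂ l₃ h₁ h₂ ih₁ ih₂ =>
    rw [show word l₁ - word l₃ = (word l₁ - word l₂) + (word l₂ - word l₃) by abel]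
    rw [← h₁.length_eq] at ih₂
    exact add_mem ih₁ ih₂

instance fil_finite (d : ℤ) : Module.Finite ℂ (fil d) := by
  refine Module.Finite.span_of_finite ℂ (Set.Finite.image _ ?_)
  exact (List.finite_length_le (Fin 4) d.toNat).subset fun l hl => by
    simp only [Set.mem_ofPred_eq] at hl ⊢
    omega

/-- The twist intertwines with `D`. -/
theorem dmat_comm {d : ℤ} {u : Pair} (hu : u ∈ fil d) :
    u.2 * dmat op = dmat op * u.2 := by
  induction hu using Submodule.span_induction with
  | mem x hx =>
    obtain ⟨l, -, rfl⟩ := hx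
    induction l with
    | nil => simp [word]
    | cons a l ih =>
      have e : (word (a :: l)).2 = twist op a * (word l).2 := by simp [word, gen]
      rw [e, mul_assoc, ih, ← mul_assoc, op_rel.dmat_commute a, mul_assoc]
  | zero => simp
  | add _ _ _ _ h h' => simp [add_mul, mul_add, h, h']
  | smul c _ _ h => simp [h]

end Vale.Agent.P176
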