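import Vale.Agent.P176.Chain
import Mathlib.CategoryTheory.Abelian.Projective.Dimension
import Mathlib.Algebra.Category.ModuleCat.Projective
import Mathlib.Algebra.Category.ModuleCat.Abelian
import Mathlib.Algebra.Category.ModuleCat.EnoughInjectives
import Mathlib.Algebra.Homology.ShortComplex.ModuleCat

/-! Projective dimensions. -/

noncomputable section

namespace Vale.Agent.P176

open CategoryTheory

/-- Projective dimension less than `k`. -/
abbrev PD (M : Type) [AddCommGroup M] [Module Alg M] (k : ℕ) : Prop :=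
  HasProjectiveDimensionLT (ModuleCat.of Alg M) k

section

variable {M N L : Type} [AddCommGroup M] [Module Alg M] [AddCommGroup N] [Module Alg N]
  [AddCommGroup L] [Module Alg L]

theorem PD.congr (e : M ≃ₗ[Alg] N) {k : ℕ} (h : PD M k) : PD N k := by
  haveI : HasProjectiveDimensionLT (ModuleCat.of Alg M) k := h
  exact hasProjectiveDimensionLT_of_iso e.toModuleIso k

theorem PD.mono {k m : ℕ} (h : PD M k) (hkm : k ≤ m) : PD M m := by
  haveI : HasProjectiveDimensionLT (ModuleCat.of Alg M) k := h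
  exact hasProjectiveDimensionLT_of_ge _ k m hkm

theorem PD.of_projective (h : Module.Projective Alg M) : PD M 1 := by
  haveI := (IsProjective.iff_projective (R := Alg) M).mp h
  show HasProjectiveDimensionLT (ModuleCat.of Alg M) 1
  infer_instance

theorem PD.projective (h : PD M 1) : Module.Projective Alg M :=
  (IsProjective.iff_projective (R := Alg) M).mpr (projective_iff_hasProjectiveDimensionLT_one.mpr h)

theorem PD.cod {f : M →ₗ[Alg] N} (hf : Function.Surjective f) {k : ℕ}
    (h₁ : PD (LinearMap.ker f) k) (h₂ : PD M (k + 1)) : PD N (k + 1) :=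
  (LinearMap.shortExact_shortComplexKer hf).hasProjectiveDimensionLT_X₃ k h₁ h₂

theorem PD.ker {f : M →ₗ[Alg] N} (hf : Function.Surjective f) {k : ℕ}
    (h₂ : PD M k) (h₃ : PD N (k + 1)) : PD (LinearMap.ker f) k :=
  (LinearMap.shortExact_shortComplexKer hf).hasProjectiveDimensionLT_X₁ k h₂ h₃

theorem PD.mid {f : M →ₗ[Alg] N} (hf : Function.Surjective f) {k : ℕ}
    (h₁ : PD (LinearMap.ker f) k) (h₃ : PD N k) : PD M k :=
  (LinearMap.shortExact_shortComplexKer hf).hasProjectiveDimensionLT_X₂ k h₁ h₃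

theorem exists_retraction (g : L →ₗ[Alg] M) (hg : Function.Injective g) {f : M →ₗ[Alg] N}
    (hf : Function.Surjective f) (h : LinearMap.ker f = LinearMap.range g)
    (hN : Module.Projective Alg N) : ∃ φ : M →ₗ[Alg] L, ∀ y, φ (g y) = y := by
  obtain ⟨s, hs⟩ := Module.projective_lifting_property f LinearMap.id hf
  have hr : ∀ z, z - s (f z) ∈ LinearMap.range g := fun z => by
    rw [← h, LinearMap.mem_ker, map_sub, ← LinearMap.comp_apply, hs, LinearMap.id_apply, sub_self]
  refine ⟨(LinearEquiv.ofInjective g hg).symm.toLinearMap.comp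
    (LinearMap.codRestrict _ (LinearMap.id - s.comp f) hr), fun y => ?_⟩
  refine (LinearEquiv.ofInjective g hg).symm_apply_eq.mpr (Subtype.ext ?_)
  show g y - s (f (g y)) = g y
  have hy : f (g y) = 0 := LinearMap.mem_ker.mp (h ▸ LinearMap.mem_range_self g y)
  rw [hy, map_zero, sub_zero]

/-- An injective map onto a submodule. -/
def isoOnto (g : L →ₗ[Alg] M) (hg : Function.Injective g) {S : Submodule Alg M}
    (h : LinearMap.range g = S) : L ≃ₗ[Alg] S :=
  (LinearEquiv.ofInjective g hg).trans (LinearEquiv.ofEq _ _ h)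

end

variable (n : ℕ)

theorem pd_term (j : Fin 5) {ι : Type} [Fintype ι] {k : ℕ} (hk : 1 ≤ k) : PD (term j ι) k :=
  (PD.of_projective (term_projective j)).mono hk

theorem pd_range_d4 : PD (LinearMap.range (d4 n)) 1 :=
  (pd_term (4 : Fin 5) le_rfl).congr (LinearEquiv.ofInjective (d4 n) (d4_injective n))

/-- The cokernel of `d4`. -/
theorem pd_range_d3 : PD (LinearMap.range (d3 n)) 2 := by
  refine PD.cod (LinearMap.surjective_rangeRestrict (d3 n)) ?_ (pd_term _ (by norm_num))
  exact (pd_range_d4 n).congr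
    (LinearEquiv.ofEq _ _ (by rw [LinearMap.ker_rangeRestrict, ker_d3]))

theorem pd_range_d2 : PD (LinearMap.range (d2 n)) 3 := by
  refine PD.cod (LinearMap.surjective_rangeRestrict (d2 n)) ?_ (pd_term _ (by norm_num))
  exact (pd_range_d3 n).congr
    (LinearEquiv.ofEq _ _ (by rw [LinearMap.ker_rangeRestrict, ker_d2]))

/-- The lower diagonal entry at the last level. -/
def chiGrp : grp →+* Op where
  toFun g := (g : Big) (Sum.inr 4) (Sum.inr 4)
  map_one' := by simp [Matrix.one_apply]
  map_zero' := rfl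
  map_add' _ _ := rfl
  map_mul' g h := by
    obtain ⟨_, b, m, hb, hm, rfl⟩ := g
    obtain ⟨_, c, m', hc, hm', rfl⟩ := h
    show (blk b m * blk c m') (Sum.inr 4) (Sum.inr 4) = _
    rw [blk_mul]
    show ((b * c) 4 4).1 = (b 4 4).1 * (c 4 4).1
    have hz : ∀ j : Fin 5, j ≠ 4 → c j 4 = 0 := fun j hj => by
      have h' := hc j 4
      rw [fil_neg (by
        have : (j : ℕ) ≠ 4 := fun e => hj (Fin.ext e)
        have := j.isLt
        omega), Submodule.mem_bot] at h'
      exact h'
    rw [Matrix.mul_apply, Finset.sum_eq_single (4 : Fin 5)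
      (fun j _ hj => by rw [hz j hj, mul_zero])
      (fun h => absurd (Finset.mem_univ _) h)]
    rfl

theorem chiGrp_kill : ∀ g ∈ idl, chiGrp g = 0 := by
  rintro g ⟨w, hw, hg⟩
  show (g : Big) (Sum.inr 4) (Sum.inr 4) = 0
  rw [hg]
  rfl

/-- A character separating the last two vertices. -/
def chi : Alg →+* Op := Ideal.Quotient.lift idl chiGrp chiGrp_kill

theorem chi_idem (j : Fin 5) : chi (idem j) = if j = 4 then 1 else 0 := by
  rw [idem, mkA_of (okB_idem j) (OkM.zero 1)]
  show (colB j (fun l => if l = j then (1 : Pair) else 0) 4 4).1 = _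
  by_cases h : j = 4
  · subst h; simp [colB]
  · simp [colB, h, Ne.symm h]

theorem not_split_d4 (φ : term 3 (Idx 4 n) →ₗ[Alg] term 4 (Idx 1 n))
    (hφ : ∀ y, φ (d4 n y) = y) : False := by
  classical
  obtain ⟨i0⟩ : Nonempty (Idx 1 n) := ⟨(0, ⟨0, Nat.succ_pos n⟩)⟩
  let x : term 4 (Idx 1 n) := termProj 4 _ (Pi.single i0 1)
  have hx : x.1 i0 = idem 4 := by simp [x, termProj]
  let t : Idx 4 n → term 3 (Idx 4 n) := fun k => termProj 3 _ (Pi.single k 1)
  have hz : ∀ z : term 3 (Idx 4 n), z = ∑ k, z.1 k • t k := fun z => by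
    refine Subtype.ext (funext fun i => ?_)
    rw [Submodule.coe_sum, Finset.sum_apply,
      Finset.sum_eq_single i (fun k _ hk => by simp [t, termProj, Ne.symm hk])
        (fun h => absurd (Finset.mem_univ _) h)]
    simp [t, termProj, z.2 i]
  have hval : ∀ k, chi ((d4 n x).1 k) = 0 := fun k => by
    rw [← (d4 n x).2 k, map_mul, chi_idem, if_neg (by decide), mul_zero]
  have key := hφ x
  rw [hz (d4 n x), map_sum] at key
  have key' : chi (x.1 i0) = 0 := by
    rw [← key, Submodule.coe_sum, Finset.sum_apply, map_sum]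
    refine Finset.sum_eq_zero fun k _ => ?_
    rw [map_smul, Submodule.coe_smul, Pi.smul_apply, smul_eq_mul, map_mul, hval k, zero_mul]
  rw [hx, chi_idem, if_pos rfl] at key'
  exact one_ne_zero key'

theorem not_pd_range_d2 : ¬ PD (LinearMap.range (d2 n)) 2 := by
  intro h
  have h1 : PD (LinearMap.range (d3 n)) 1 :=
    (PD.ker (LinearMap.surjective_rangeRestrict (d2 n)) (pd_term _ le_rfl) h).congr
      (LinearEquiv.ofEq _ _ (by rw [LinearMap.ker_rangeRestrict, ker_d2]))
  have hk : LinearMap.ker (d3 n).rangeRestrict = LinearMap.range (d4 n) := by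
    rw [LinearMap.ker_rangeRestrict, ker_d3]
  obtain ⟨φ, hφ⟩ := exists_retraction (d4 n) (d4_injective n)
    (N := LinearMap.range (d3 n)) (f := (d3 n).rangeRestrict)
    (LinearMap.surjective_rangeRestrict (d3 n)) hk h1.projective
  exact not_split_d4 n φ hφ

/-- `ker θ` is the image of `d2`. -/
def kerThetaEquiv : LinearMap.ker (theta n) ≃ₗ[Alg] LinearMap.range (d2 n) :=
  (Submodule.equivMapOfInjective (under n) (under_injective n) _).trans
    (LinearEquiv.ofEq _ _ (under_ker_theta n))

/-- From `Γ` to `Y`. -/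
theorem pd_Ym_of_gam {m : ℕ} (hm : 1 ≤ m) (hP : PD (YP n) (m + 1)) (hG : PD (gam n) (m + 1))
    (hG' : ¬ PD (gam n) m) : PD (Ym n) (m + 3) ∧ ¬ PD (Ym n) (m + 2) := by
  have eK : gam n ≃ₗ[Alg] LinearMap.ker (d1 n).rangeRestrict :=
    isoOnto (under n) (under_injective n) (by rw [range_under, LinearMap.ker_rangeRestrict])
  have eR : LinearMap.range (d1 n) ≃ₗ[Alg] LinearMap.ker (eps n) :=
    LinearEquiv.ofEq _ _ (ker_eps n).symm
  have eY : YP n ≃ₗ[Alg] LinearMap.ker (GMod.proj n) :=
    isoOnto (GMod.inj n) GMod.inj_injective GMod.ker_proj.symm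
  have hR : PD (LinearMap.range (d1 n)) (m + 2) :=
    PD.cod (LinearMap.surjective_rangeRestrict _) (hG.congr eK) (pd_term _ (by omega))
  have hR' : ¬ PD (LinearMap.range (d1 n)) (m + 1) := fun h =>
    hG' ((PD.ker (LinearMap.surjective_rangeRestrict _) (pd_term _ hm) h).congr eK.symm)
  have hM : PD (GMod n) (m + 3) :=
    PD.cod (eps_surjective n) (hR.congr eR) (pd_term _ (by omega))
  have hM' : ¬ PD (GMod n) (m + 2) := fun h =>
    hR' ((PD.ker (eps_surjective n) (pd_term _ (by omega)) h).congr eR.symm)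
  exact ⟨PD.cod GMod.proj_surjective ((hP.mono (Nat.le_succ _)).congr eY) hM,
    fun h => hM' (PD.mid GMod.proj_surjective ((hP.mono (Nat.le_succ _)).congr eY) h)⟩

theorem pd_YP_zero : PD (YP 0) 0 := by
  haveI : Subsingleton (YP 0) := ⟨fun f g => LMod.ext (funext fun l => by
    rw [(Submodule.mem_bot ℂ).mp (LMod.val_mem f l), (Submodule.mem_bot ℂ).mp (LMod.val_mem g l)])⟩
  haveI : Subsingleton (ModuleCat.of Alg (YP 0)) := ‹_›
  exact (ModuleCat.isZero_of_subsingleton _).hasProjectiveDimensionLT_zero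

/-- `Y n` has projective dimension exactly `4 + 2n`. -/
theorem pd_Ym : ∀ n, PD (Ym n) (5 + 2 * n) ∧ ¬ PD (Ym n) (4 + 2 * n)
  | 0 => by
    have hK : PD (LinearMap.ker (theta 0)) 3 := (pd_range_d2 0).congr (kerThetaEquiv 0).symm
    refine pd_Ym_of_gam 0 (m := 2) (by norm_num) (pd_YP_zero.mono (by norm_num))
      (PD.mid (theta_surjective 0) hK (pd_YP_zero.mono (by norm_num))) fun h => ?_
    exact not_pd_range_d2 0 ((PD.ker (theta_surjective 0) h
      (pd_YP_zero.mono (by norm_num))).congr (kerThetaEquiv 0))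
  | n + 1 => by
    obtain ⟨hu, hl⟩ := pd_Ym n
    have hP : PD (YP (n + 1)) (4 + 2 * n + 1) := hu.mono (by omega)
    have hP' : ¬ PD (YP (n + 1)) (3 + 2 * n + 1) := fun h => hl (h.mono (by omega))
    have hK : PD (LinearMap.ker (theta (n + 1))) (3 + 2 * n) :=
      ((pd_range_d2 (n + 1)).congr (kerThetaEquiv (n + 1)).symm).mono (by omega)
    have := pd_Ym_of_gam (n + 1) (m := 4 + 2 * n) (by omega) hP
      (PD.mid (theta_surjective (n + 1)) (hK.mono (by omega)) hP)
      (fun h => hP' (PD.cod (theta_surjective (n + 1)) hK (h.mono (by omega))))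
    exact ⟨this.1.mono (by omega), fun h => this.2 (h.mono (by omega))⟩

theorem ym_finite (n : ℕ) : Module.Finite Alg (Ym n) := by
  refine Module.Finite.of_surjective
    ((GMod.proj n).comp ((eps n).comp (termProj 0 (Idx 1 n)))) ?_
  exact GMod.proj_surjective.comp ((eps_surjective n).comp fun x =>
    ⟨x.1, Subtype.ext (funext fun i => x.2 i)⟩)

end Vale.Agent.P176
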