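import Vale.Agent.P176.Ops
import Mathlib.RingTheory.MvPolynomial.Basic
import Mathlib.Algebra.Order.Antidiag.Finsupp

/-! Symbols of operators of bounded word length. -/

noncomputable section

namespace Vale.Agent.P176

open MvPolynomial

/-- Polynomials with no monomial of degree `< k`. -/
def ordGE (k : ℤ) : Submodule ℂ Pol where
  carrier := {f | ∀ m : Fin 4 →₀ ℕ, (m.degree : ℤ) < k → coeff m f = 0}
  add_mem' := fun hf hg m hm => by rw [coeff_add, hf m hm, hg m hm, add_zero]
  zero_mem' := fun m _ => coeff_zero m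
  smul_mem' := fun c f hf m hm => by rw [coeff_smul, hf m hm, smul_zero]

theorem ordGE_anti {k k' : ℤ} (h : k ≤ k') : ordGE k' ≤ ordGE k :=
  fun _ hf m hm => hf m (lt_of_lt_of_le hm h)

theorem pderiv_ordGE {k : ℤ} {f : Pol} (hf : f ∈ ordGE k) (a : Fin 4) :
    pderiv a f ∈ ordGE (k - 1) := by
  intro m hm
  rw [coeff_pderiv, hf _ (by rw [map_add, Finsupp.degree_single]; push_cast; omega), zero_mul]

theorem X_mul_ordGE {k : ℤ} {f : Pol} (hf : f ∈ ordGE k) (a : Fin 4) :
    X a * f ∈ ordGE (k + 1) := by
  intro m hm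
  rw [coeff_X_mul']
  split_ifs with h
  · refine hf _ ?_
    have h1 : m - Finsupp.single a 1 + Finsupp.single a 1 = m :=
      tsub_add_cancel_of_le (Finsupp.single_le_iff.mpr
        (Nat.one_le_iff_ne_zero.mpr (Finsupp.mem_support_iff.mp h)))
    have h2 := congrArg Finsupp.degree h1
    rw [map_add, Finsupp.degree_single] at h2
    omega
  · rfl

theorem derivation_eq_sum (e : Derivation ℂ Pol Pol) (f : Pol) :
    e f = ∑ i, e (X i) * pderiv i f := by
  induction f using MvPolynomial.induction_on with
  | C a => simp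
  | add p q hp hq => simp [hp, hq, mul_add, Finset.sum_add_distrib]
  | mul_X p i hp =>
    rw [Derivation.leibniz, smul_eq_mul, smul_eq_mul, hp, Finset.mul_sum]
    have h : ∀ j, e (X j) * pderiv j (p * X i) =
        X i * (e (X j) * pderiv j p) + if j = i then p * e (X i) else 0 := by
      intro j
      rcases eq_or_ne j i with rfl | hj
      · rw [pderiv_mul, pderiv_X_self, if_pos rfl]; ring
      · rw [pderiv_mul, pderiv_X_of_ne hj.symm, if_neg hj]; ring
    rw [Finset.sum_congr rfl fun j _ => h j, Finset.sum_add_distrib, Finset.sum_ite_eq',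
      if_pos (Finset.mem_univ i)]
    ring

theorem op_sub_pderiv {k : ℤ} {f : Pol} (hf : f ∈ ordGE k) (a : Fin 4) :
    op a f - pderiv a f ∈ ordGE k := by
  have key : ∀ b c, X b * pderiv c f ∈ ordGE k := fun b c => by
    have := X_mul_ordGE (pderiv_ordGE hf c) b
    rwa [sub_add_cancel] at this
  rw [op_apply, derivation_eq_sum]
  fin_cases a <;> simp [dv, mkDerivation_X, Fin.sum_univ_four, add_mul, Matrix.vecHead,
    Matrix.vecTail]
  · convert add_mem (key 0 0) (key 3 3) using 1; ring
  · convert add_mem (key 1 1) (key 2 2) using 1; ring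
  · convert add_mem (key 0 2) (key 3 1) using 1; ring
  · convert add_mem (key 2 0) (key 1 3) using 1; ring

theorem op_ordGE {k : ℤ} {f : Pol} (hf : f ∈ ordGE k) (a : Fin 4) : op a f ∈ ordGE (k - 1) := by
  have h := add_mem (ordGE_anti (by omega : k - 1 ≤ k) (op_sub_pderiv hf a)) (pderiv_ordGE hf a)
  simpa using h

/-- Iterated partial derivatives along a word. -/
def dword (l : List (Fin 4)) (f : Pol) : Pol := l.foldr (fun a g => pderiv a g) f

theorem word_cons (a : Fin 4) (l : List (Fin 4)) : word (a :: l) = gen a * word l := by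
  simp [word]

theorem dword_ordGE {k : ℤ} {f : Pol} (hf : f ∈ ordGE k) (l : List (Fin 4)) :
    dword l f ∈ ordGE (k - l.length) := by
  induction l with
  | nil => simpa [dword] using hf
  | cons a l ih =>
    refine ordGE_anti (le_of_eq ?_) (pderiv_ordGE ih a)
    push_cast [List.length_cons]
    ring

theorem word_approx {k : ℤ} {f : Pol} (hf : f ∈ ordGE k) (l : List (Fin 4)) :
    (word l).1 f - dword l f ∈ ordGE (k - l.length + 1) := by
  induction l with
  | nil => simp [word, dword]
  | cons a l ih =>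
    have e : (word (a :: l)).1 f - dword (a :: l) f =
        op a ((word l).1 f - dword l f) + (op a (dword l f) - pderiv a (dword l f)) := by
      rw [map_sub, word_cons]
      simp [gen, dword]
    rw [e]
    refine ordGE_anti (le_of_eq ?_) (add_mem (ordGE_anti (le_of_eq ?_) (op_ordGE ih a))
      (op_sub_pderiv (dword_ordGE hf l) a))
    · push_cast [List.length_cons]; ring
    · ring

/-- Multinomial factorial of an exponent. -/
def ffact (m : Fin 4 →₀ ℕ) : ℂ := ∏ i, ((m i).factorial : ℂ)

theorem ffact_ne_zero (m : Fin 4 →₀ ℕ) : ffact m ≠ 0 :=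
  Finset.prod_ne_zero_iff.mpr fun i _ => Nat.cast_ne_zero.mpr (Nat.factorial_ne_zero _)

theorem ffact_add_single (m : Fin 4 →₀ ℕ) (a : Fin 4) :
    ffact (m + Finsupp.single a 1) = ffact m * ((m a : ℂ) + 1) := by
  rw [ffact, ffact, ← Finset.mul_prod_erase _ _ (Finset.mem_univ a),
    ← Finset.mul_prod_erase _ _ (Finset.mem_univ a)]
  have h : ∏ x ∈ Finset.univ.erase a,
      ((((m + Finsupp.single a 1 : Fin 4 →₀ ℕ)) x).factorial : ℂ) =
      ∏ x ∈ Finset.univ.erase a, ((m x).factorial : ℂ) :=
    Finset.prod_congr rfl fun x hx => by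
      simp [Finsupp.single_eq_of_ne (Finset.mem_erase.mp hx).1]
  rw [h, Finsupp.add_apply, Finsupp.single_eq_same, Nat.factorial_succ]
  push_cast
  ring

/-- Exponent of a word. -/
def cnt (l : List (Fin 4)) : Fin 4 →₀ ℕ := Multiset.toFinsupp (l : Multiset (Fin 4))

theorem cnt_cons (a : Fin 4) (l : List (Fin 4)) : cnt (a :: l) = cnt l + Finsupp.single a 1 := by
  rw [cnt, cnt, ← Multiset.cons_coe, ← Multiset.singleton_add, map_add,
    Multiset.toFinsupp_singleton, add_comm]

theorem cnt_nil : cnt [] = 0 := by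
  rw [cnt, Multiset.coe_nil]; exact map_zero _

theorem cnt_degree (l : List (Fin 4)) : (cnt l).degree = l.length := by
  induction l with
  | nil => simp [cnt_nil]
  | cons a l ih => rw [cnt_cons, map_add, Finsupp.degree_single, ih, List.length_cons]

theorem cnt_append (l l' : List (Fin 4)) : cnt (l ++ l') = cnt l + cnt l' := by
  rw [cnt, cnt, cnt, ← map_add, ← Multiset.coe_add]

theorem coeff_dword (l : List (Fin 4)) (f : Pol) : ∀ m,
    coeff m (dword l f) * ffact m = coeff (m + cnt l) f * ffact (m + cnt l) := by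
  induction l with
  | nil => intro m; simp [dword, cnt_nil]
  | cons a l ih =>
    intro m
    have h := ih (m + Finsupp.single a 1)
    rw [ffact_add_single] at h
    rw [show dword (a :: l) f = pderiv a (dword l f) from rfl, coeff_pderiv, cnt_cons,
      show m + (cnt l + Finsupp.single a 1) = m + Finsupp.single a 1 + cnt l by abel, ← h]
    ring

/-- The degree `d` symbol of an operator. -/
def symb (d : ℕ) : Op →ₗ[ℂ] Pol :=
  ∑ m ∈ (Finset.univ : Finset (Fin 4)).finsuppAntidiag d,
    ((monomial m).comp ((ffact m)⁻¹ • ((lcoeff ℂ (0 : Fin 4 →₀ ℕ)).comp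
      (LinearMap.applyₗ (monomial m (1 : ℂ))))))

theorem coeff_symb (d : ℕ) (u : Op) (m : Fin 4 →₀ ℕ) :
    coeff m (symb d u) = if m.degree = d then (ffact m)⁻¹ * coeff 0 (u (monomial m 1)) else 0 := by
  classical
  have hm : m ∈ (Finset.univ : Finset (Fin 4)).finsuppAntidiag d ↔ m.degree = d := by
    simp [Finset.mem_finsuppAntidiag, Finsupp.degree_eq_sum]
  simp only [symb, LinearMap.sum_apply, LinearMap.comp_apply, LinearMap.smul_apply, coeff_sum,
    coeff_monomial, lcoeff_apply, LinearMap.applyₗ_apply_apply, smul_eq_mul]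
  rw [Finset.sum_ite_eq']
  simp only [hm]

theorem monomial_ordGE (m : Fin 4 →₀ ℕ) : monomial m (1 : ℂ) ∈ ordGE (m.degree : ℤ) := by
  classical
  intro m' hm'
  rw [coeff_monomial, if_neg]
  rintro rfl
  omega

theorem symb_word_of_lt {d : ℕ} {l : List (Fin 4)} (h : l.length < d) :
    symb d (word l).1 = 0 := by
  ext m
  rw [coeff_symb, coeff_zero]
  split_ifs with hm
  · have hf : monomial m (1 : ℂ) ∈ ordGE (d : ℤ) := hm ▸ monomial_ordGE m
    have h1 := ordGE_anti (show (1 : ℤ) ≤ (d : ℤ) - l.length + 1 by omega) (word_approx hf l)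
      0 (by simp)
    have h2 := ordGE_anti (show (1 : ℤ) ≤ (d : ℤ) - l.length by omega) (dword_ordGE hf l)
      0 (by simp)
    rw [coeff_sub, h2, sub_zero] at h1
    rw [h1, mul_zero]
  · rfl

theorem symb_word_of_eq {d : ℕ} {l : List (Fin 4)} (h : l.length = d) :
    symb d (word l).1 = monomial (cnt l) 1 := by
  classical
  ext m
  rw [coeff_symb, coeff_monomial]
  split_ifs with hm hml
  · have hf : monomial m (1 : ℂ) ∈ ordGE (d : ℤ) := hm ▸ monomial_ordGE m
    have h1 := ordGE_anti (show (1 : ℤ) ≤ (d : ℤ) - l.length + 1 by omega) (word_approx hf l)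
      0 (by simp)
    rw [coeff_sub, sub_eq_zero] at h1
    have h2 := coeff_dword l (monomial m 1) 0
    rw [zero_add, coeff_monomial, if_pos hml.symm] at h2
    have h0 : ffact 0 = 1 := by simp [ffact]
    rw [h0, mul_one, one_mul] at h2
    rw [h1, h2, hml]
    exact inv_mul_cancel₀ (ffact_ne_zero m)
  · have hf : monomial m (1 : ℂ) ∈ ordGE (d : ℤ) := hm ▸ monomial_ordGE m
    have h1 := ordGE_anti (show (1 : ℤ) ≤ (d : ℤ) - l.length + 1 by omega) (word_approx hf l)
      0 (by simp)
    rw [coeff_sub, sub_eq_zero] at h1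
    have h2 := coeff_dword l (monomial m 1) 0
    rw [zero_add, coeff_monomial, if_neg (Ne.symm hml), zero_mul] at h2
    have h0 : ffact 0 = 1 := by simp [ffact]
    rw [h0, mul_one] at h2
    rw [h1, h2, mul_zero]
  · rename_i hml
    exact absurd (by rw [← hml, cnt_degree, h]) hm
  · rfl

/-- A word with a given exponent. -/
def canon (m : Fin 4 →₀ ℕ) : List (Fin 4) := (Finsupp.toMultiset m).toList

theorem cnt_canon (m : Fin 4 →₀ ℕ) : cnt (canon m) = m := by
  rw [cnt, canon, Multiset.coe_toList, Finsupp.toMultiset_toFinsupp]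

theorem canon_length (m : Fin 4 →₀ ℕ) : (canon m).length = m.degree := by
  rw [← cnt_degree, cnt_canon]

theorem canon_perm (l : List (Fin 4)) : l.Perm (canon (cnt l)) := by
  rw [← Multiset.coe_eq_coe, canon, Multiset.coe_toList, cnt, Multiset.toFinsupp_toMultiset]

/-- A linear section of the symbol. -/
def lift : Pol →ₗ[ℂ] Pair :=
  (basisMonomials (Fin 4) ℂ).constr ℂ fun m => word (canon m)

theorem lift_monomial (m : Fin 4 →₀ ℕ) : lift (monomial m 1) = word (canon m) := by
  rw [show monomial m (1 : ℂ) = basisMonomials (Fin 4) ℂ m by rw [coe_basisMonomials]]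
  exact Module.Basis.constr_basis _ _ _ _

theorem symb_homogeneous (d : ℕ) (u : Op) : (symb d u).IsHomogeneous d := by
  intro m hm
  rw [coeff_symb] at hm
  split_ifs at hm with h
  · rw [← h, Finsupp.degree_eq_weight_one]; rfl
  · exact absurd rfl hm

theorem lift_mem {d : ℕ} {g : Pol} (hg : g.IsHomogeneous d) : lift g ∈ fil d := by
  rw [g.as_sum, map_sum]
  refine Submodule.sum_mem _ fun m hm => ?_
  have : monomial m (coeff m g) = coeff m g • monomial m (1 : ℂ) := by
    rw [smul_monomial, smul_eq_mul, mul_one]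
  rw [this, map_smul, lift_monomial]
  refine Submodule.smul_mem _ _ (word_mem ?_)
  rw [canon_length, hg.degree_eq_sum_deg_support hm]
  rfl

theorem symb_lift {d : ℕ} {g : Pol} (hg : g.IsHomogeneous d) : symb d (lift g).1 = g := by
  conv_rhs => rw [g.as_sum]
  conv_lhs => rw [g.as_sum, map_sum, Prod.fst_sum, map_sum]
  refine Finset.sum_congr rfl fun m hm => ?_
  have e : monomial m (coeff m g) = coeff m g • monomial m (1 : ℂ) := by
    rw [smul_monomial, smul_eq_mul, mul_one]
  rw [e, map_smul, lift_monomial, Prod.smul_fst, map_smul, symb_word_of_eq, cnt_canon]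
  rw [canon_length]
  exact (hg.degree_eq_sum_deg_support hm).symm

theorem symb_eq_zero_of_mem {d : ℕ} {u : Pair} (hu : u ∈ fil ((d : ℤ) - 1)) :
    symb d u.1 = 0 := by
  induction hu using Submodule.span_induction with
  | mem x hx =>
    obtain ⟨l, hl, rfl⟩ := hx
    simp only [Set.mem_ofPred_eq] at hl
    exact symb_word_of_lt (by omega)
  | zero => simp
  | add _ _ _ _ h h' => simp [h, h']
  | smul c _ _ h => simp [h]

theorem sub_lift_symb_mem {d : ℕ} {u : Pair} (hu : u ∈ fil (d : ℤ)) :
    u - lift (symb d u.1) ∈ fil ((d : ℤ) - 1) := by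
  induction hu using Submodule.span_induction with
  | mem x hx =>
    obtain ⟨l, hl, rfl⟩ := hx
    simp only [Set.mem_ofPred_eq, Nat.cast_le] at hl
    rcases lt_or_eq_of_le hl with h | h
    · rw [symb_word_of_lt h, map_zero, sub_zero]
      exact word_mem (by omega)
    · rw [symb_word_of_eq h, lift_monomial]
      exact fil_mono (by omega) (word_perm (canon_perm l))
  | zero => simp
  | add x y _ _ h h' =>
    rw [Prod.fst_add, map_add, map_add, add_sub_add_comm]
    exact add_mem h h'
  | smul c x _ h =>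
    rw [Prod.smul_fst, map_smul, map_smul, ← smul_sub]
    exact Submodule.smul_mem _ c h

theorem mem_of_symb_eq_zero {d : ℕ} {u : Pair} (hu : u ∈ fil (d : ℤ)) (h : symb d u.1 = 0) :
    u ∈ fil ((d : ℤ) - 1) := by
  simpa [h] using sub_lift_symb_mem hu

theorem symb_mul {a b : ℕ} {u v : Pair} (hu : u ∈ fil (a : ℤ)) (hv : v ∈ fil (b : ℤ)) :
    symb (a + b) (u * v).1 = symb a u.1 * symb b v.1 := by
  induction hu using Submodule.span_induction with
  | mem x hx =>
    obtain ⟨l, hl, rfl⟩ := hx
    simp only [Set.mem_ofPred_eq, Nat.cast_le] at hl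
    induction hv using Submodule.span_induction with
    | mem y hy =>
      obtain ⟨l', hl', rfl⟩ := hy
      simp only [Set.mem_ofPred_eq, Nat.cast_le] at hl'
      have hw : word l * word l' = word (l ++ l') := by simp [word]
      rw [hw]
      rcases lt_or_eq_of_le hl with h | h
      · rw [symb_word_of_lt h, zero_mul, symb_word_of_lt]
        rw [List.length_append]; omega
      · rcases lt_or_eq_of_le hl' with h' | h'
        · rw [symb_word_of_lt h', mul_zero, symb_word_of_lt]
          rw [List.length_append]; omega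
        · rw [symb_word_of_eq h, symb_word_of_eq h', symb_word_of_eq, monomial_mul, cnt_append,
            mul_one]
          rw [List.length_append, h, h']
    | zero => simp
    | add x y _ _ p q =>
      rw [mul_add, Prod.fst_add, map_add, p, q, Prod.fst_add, map_add, mul_add]
    | smul c x _ p =>
      rw [mul_smul_comm, Prod.smul_fst, map_smul, p, Prod.smul_fst, map_smul, mul_smul_comm]
  | zero => simp
  | add x y _ _ p q =>
    rw [add_mul, Prod.fst_add, map_add, p, q, Prod.fst_add, map_add, add_mul]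
  | smul c x _ p =>
    rw [smul_mul_assoc, Prod.smul_fst, map_smul, p, Prod.smul_fst, map_smul, smul_mul_assoc]

theorem symb_gen (a : Fin 4) : symb 1 (gen a).1 = X a := by
  have e : word [a] = gen a := by simp [word]
  rw [← e, symb_word_of_eq (by simp), cnt_cons, cnt_nil, zero_add]
  rfl

theorem fst_eq_zero {d : ℤ} {u : Pair} (hu : u ∈ fil d) (h : u.1 = 0) : u = 0 := by
  by_cases hd : d < 0
  · simpa [fil_neg hd] using hu
  obtain ⟨n, rfl⟩ := Int.eq_ofNat_of_zero_le (not_lt.mp hd)
  clear hd
  induction n with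
  | zero =>
    have := mem_of_symb_eq_zero hu (by rw [h, map_zero])
    rwa [fil_neg (show ((0 : ℕ) : ℤ) - 1 < 0 by omega), Submodule.mem_bot] at this
  | succ n ih =>
    have := mem_of_symb_eq_zero hu (by rw [h, map_zero])
    exact ih (fil_mono (by omega) this)

/-- Operators of word length at most `d`. -/
def sf (d : ℤ) : Submodule ℂ Op := (fil d).map (LinearMap.fst ℂ Op _)

theorem mem_sf {d : ℤ} {x : Op} : x ∈ sf d ↔ ∃ u ∈ fil d, u.1 = x := Submodule.mem_map

theorem sf_mono {d d' : ℤ} (h : d ≤ d') : sf d ≤ sf d' := Submodule.map_mono (fil_mono h)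

theorem sf_neg {d : ℤ} (h : d < 0) : sf d = ⊥ := by rw [sf, fil_neg h, Submodule.map_bot]

theorem mul_mem_sf {a b : ℤ} {x y : Op} (hx : x ∈ sf a) (hy : y ∈ sf b) : x * y ∈ sf (a + b) := by
  obtain ⟨u, hu, rfl⟩ := mem_sf.mp hx
  obtain ⟨v, hv, rfl⟩ := mem_sf.mp hy
  exact mem_sf.mpr ⟨u * v, mul_mem_fil hu hv, rfl⟩

theorem one_mem_sf {d : ℤ} (h : 0 ≤ d) : (1 : Op) ∈ sf d :=
  mem_sf.mpr ⟨1, one_mem_fil h, rfl⟩

theorem op_mem_sf (a : Fin 4) {d : ℤ} (h : 1 ≤ d) : op a ∈ sf d :=
  mem_sf.mpr ⟨gen a, gen_mem_fil a h, rfl⟩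

theorem snd_entry_mem {d : ℤ} {u : Pair} (hu : u ∈ fil d) (i j : Fin 2) : u.2 i j ∈ sf d := by
  induction hu using Submodule.span_induction generalizing i j with
  | mem x hx =>
    obtain ⟨l, hl, rfl⟩ := hx
    refine sf_mono hl ?_
    clear hl
    induction l generalizing i j with
    | nil =>
      simp only [word, List.map_nil, List.prod_nil, Prod.snd_one, Matrix.one_apply]
      split_ifs
      · exact one_mem_sf le_rfl
      · exact zero_mem _
    | cons a l ih =>
      rw [word_cons, Prod.snd_mul, Matrix.mul_apply]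
      refine Submodule.sum_mem _ fun k _ => ?_
      have hk : (gen a).2 i k ∈ sf 1 := by
        have h1 := one_mem_sf (zero_le_one (α := ℤ))
        have h0 := fun c => op_mem_sf c (le_refl (1 : ℤ))
        fin_cases a <;> fin_cases i <;> fin_cases k <;>
          simp [gen, twist, Matrix.vecHead, Matrix.vecTail] <;>
          first
            | exact h0 _
            | exact h1
            | exact zero_mem _
            | exact sub_mem (h0 _) h1
      exact sf_mono (by push_cast [List.length_cons]; omega)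
        (mul_mem_sf hk (ih k j))
  | zero => simp
  | add x y _ _ h h' => exact add_mem (h i j) (h' i j)
  | smul c x _ h => exact Submodule.smul_mem _ c (h i j)

instance sf_finite (d : ℤ) : Module.Finite ℂ (sf d) := Module.Finite.map _ _

end Vale.Agent.P176
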