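import Vale.Agent.P176.CE
import Vale.Agent.P176.Alg
import Mathlib.LinearAlgebra.LinearIndependent.Basic
import Mathlib.Tactic.Module

/-! The modules `Sym^n` inside `Pol` and the contraction. -/

noncomputable section

namespace Vale.Agent.P176

open MvPolynomial

/-- First coordinate of the first column. -/
def w0 : Pol := 1 + X 0

/-- Second coordinate of the first column. -/
def w1 : Pol := X 2

/-- A monomial in `w0, w1`. -/
def mon (p q : ℕ) : Pol := w0 ^ p * w1 ^ q

/-- Homogeneous polynomials of degree `n` in `w0, w1`. -/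
def vs (n : ℕ) : Submodule ℂ Pol :=
  Submodule.span ℂ {f | ∃ p q, p + q = n ∧ f = mon p q}

/-- `vs (n - 1)`, read as zero for `n = 0`. -/
def vp : ℕ → Submodule ℂ Pol
  | 0 => ⊥
  | n + 1 => vs n

theorem mon_mem {p q n : ℕ} (h : p + q = n) : mon p q ∈ vs n :=
  Submodule.subset_span ⟨p, q, h, rfl⟩

theorem pderiv_w : pderiv (0 : Fin 4) w0 = 1 ∧ pderiv (2 : Fin 4) w0 = 0 ∧
    pderiv (1 : Fin 4) w0 = 0 ∧ pderiv (3 : Fin 4) w0 = 0 ∧
    pderiv (0 : Fin 4) w1 = 0 ∧ pderiv (2 : Fin 4) w1 = 1 ∧
    pderiv (1 : Fin 4) w1 = 0 ∧ pderiv (3 : Fin 4) w1 = 0 := by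
  simp [w0, w1, pderiv_X]

theorem pderiv_mon (p q : ℕ) :
    pderiv (0 : Fin 4) (mon p q) = (p : Pol) * mon (p - 1) q ∧
    pderiv (2 : Fin 4) (mon p q) = (q : Pol) * mon p (q - 1) ∧
    pderiv (1 : Fin 4) (mon p q) = 0 ∧ pderiv (3 : Fin 4) (mon p q) = 0 := by
  obtain ⟨a, b, c, d, a', b', c', d'⟩ := pderiv_w
  simp only [mon, pderiv_mul, pderiv_pow, a, b, c, d, a', b', c', d']
  refine ⟨?_, ?_, ?_, ?_⟩ <;> ring

theorem vs_props {n : ℕ} {f : Pol} (hf : f ∈ vs n) :
    pderiv (1 : Fin 4) f = 0 ∧ pderiv (3 : Fin 4) f = 0 ∧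
    pderiv (0 : Fin 4) f ∈ vp n ∧ pderiv (2 : Fin 4) f ∈ vp n ∧
    w0 * pderiv (0 : Fin 4) f + w1 * pderiv (2 : Fin 4) f = (n : ℂ) • f := by
  induction hf using Submodule.span_induction with
  | mem x hx =>
    obtain ⟨p, q, rfl, rfl⟩ := hx
    obtain ⟨h0, h2, h1, h3⟩ := pderiv_mon p q
    refine ⟨h1, h3, ?_, ?_, ?_⟩
    · rw [h0]
      rcases p with _ | p
      · simp
      · rw [← nsmul_eq_mul, show p + 1 + q = (p + q) + 1 by ring]
        exact nsmul_mem (mon_mem (by simp)) _
    · rw [h2]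
      rcases q with _ | q
      · simp
      · rw [← nsmul_eq_mul, show p + (q + 1) = (p + q) + 1 by ring]
        exact nsmul_mem (mon_mem (by simp)) _
    · rw [h0, h2, smul_eq_C_mul, map_natCast, Nat.cast_add]
      rcases p with _ | p <;> rcases q with _ | q <;> simp [mon] <;> ring
  | zero => simp
  | add x y _ _ hx hy =>
    obtain ⟨a, b, c, d, e⟩ := hx
    obtain ⟨a', b', c', d', e'⟩ := hy
    refine ⟨by simp [a, a'], by simp [b, b'], ?_, ?_, ?_⟩
    · rw [map_add]; exact add_mem c c'
    · rw [map_add]; exact add_mem d d'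
    · rw [map_add, map_add, smul_add, ← e, ← e']; ring
  | smul r x _ hx =>
    obtain ⟨a, b, c, d, e⟩ := hx
    refine ⟨by rw [Derivation.map_smul, a, smul_zero], by rw [Derivation.map_smul, b, smul_zero],
      ?_, ?_, ?_⟩
    · rw [Derivation.map_smul]; exact Submodule.smul_mem _ _ c
    · rw [Derivation.map_smul]; exact Submodule.smul_mem _ _ d
    · rw [Derivation.map_smul, Derivation.map_smul, mul_smul_comm, mul_smul_comm, ← smul_add, e,
        smul_comm]

theorem w_mul_mem {n : ℕ} {g : Pol} (hg : g ∈ vp n) : w0 * g ∈ vs n ∧ w1 * g ∈ vs n := by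
  cases n with
  | zero =>
    obtain rfl : g = 0 := by simpa [vp] using hg
    simp
  | succ n =>
    have hg' : g ∈ vs n := hg
    clear hg
    induction hg' using Submodule.span_induction with
    | mem x hx =>
      obtain ⟨p, q, rfl, rfl⟩ := hx
      refine ⟨?_, ?_⟩
      · rw [show w0 * mon p q = mon (p + 1) q by simp [mon, pow_succ]; ring]
        exact mon_mem (by ring)
      · rw [show w1 * mon p q = mon p (q + 1) by simp [mon, pow_succ]; ring]
        exact mon_mem (by ring)
    | zero => simp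
    | add x y _ _ hx hy => exact ⟨by rw [mul_add]; exact add_mem hx.1 hy.1,
        by rw [mul_add]; exact add_mem hx.2 hy.2⟩
    | smul r x _ hx => exact ⟨by rw [mul_smul_comm]; exact Submodule.smul_mem _ _ hx.1,
        by rw [mul_smul_comm]; exact Submodule.smul_mem _ _ hx.2⟩

theorem op_vs {n : ℕ} {f : Pol} (hf : f ∈ vs n) :
    op 0 f = w0 * pderiv (0 : Fin 4) f ∧ op 1 f = w1 * pderiv (2 : Fin 4) f ∧
    op 2 f = w0 * pderiv (2 : Fin 4) f ∧ op 3 f = w1 * pderiv (0 : Fin 4) f := by
  obtain ⟨h1, h3, -⟩ := vs_props hf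
  simp only [op_apply]
  refine ⟨?_, ?_, ?_, ?_⟩ <;> rw [derivation_eq_sum, Fin.sum_univ_four, h1, h3] <;>
    simp [dv, mkDerivation_X, w0, w1]

theorem op_mem_vs {n : ℕ} {f : Pol} (hf : f ∈ vs n) (a : Fin 4) : op a f ∈ vs n := by
  obtain ⟨-, -, h0, h2, -⟩ := vs_props hf
  obtain ⟨o0, o1, o2, o3⟩ := op_vs hf
  have A := w_mul_mem h0
  have B := w_mul_mem h2
  fin_cases a
  · exact o0.symm ▸ A.1
  · exact o1.symm ▸ B.2
  · exact o2.symm ▸ B.1
  · exact o3.symm ▸ A.2

theorem sf_mem_vs {n : ℕ} {d : ℤ} {x : Op} (hx : x ∈ sf d) {f : Pol} (hf : f ∈ vs n) :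
    x f ∈ vs n := by
  obtain ⟨u, hu, rfl⟩ := mem_sf.mp hx
  clear hx
  induction hu using Submodule.span_induction generalizing f with
  | mem y hy =>
    obtain ⟨l, -, rfl⟩ := hy
    induction l with
    | nil => simpa [word] using hf
    | cons a l ih =>
      rw [word_cons]
      exact op_mem_vs ih a
  | zero => simp
  | add y z _ _ hy hz => exact add_mem (hy hf) (hz hf)
  | smul c y _ hy => exact Submodule.smul_mem _ c (hy hf)

theorem sf_mem_vp {n : ℕ} {d : ℤ} {x : Op} (hx : x ∈ sf d) {f : Pol} (hf : f ∈ vp n) :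
    x f ∈ vp n := by
  cases n with
  | zero =>
    obtain rfl : f = 0 := by simpa [vp] using hf
    simp
  | succ n => exact sf_mem_vs hx hf

/-- The basis of `vs n`. -/
def vbasis (n : ℕ) (b : Fin (n + 1)) : Pol := mon b (n - b)

theorem vs_eq_span (n : ℕ) : vs n = Submodule.span ℂ (Set.range (vbasis n)) := by
  apply le_antisymm <;> rw [vs, Submodule.span_le]
  · rintro f ⟨p, q, rfl, rfl⟩
    exact Submodule.subset_span ⟨⟨p, by omega⟩, by simp [vbasis]⟩
  · rintro f ⟨b, rfl⟩
    exact Submodule.subset_span ⟨b, n - b, by omega, rfl⟩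

theorem vbasis_indep (n : ℕ) : LinearIndependent ℂ (vbasis n) := by
  let sh : Pol →ₐ[ℂ] Pol := aeval (Function.update X 0 (X 0 - 1))
  let e : Fin (n + 1) → (Fin 4 →₀ ℕ) :=
    fun b => Finsupp.single 0 (b : ℕ) + Finsupp.single 2 (n - (b : ℕ))
  have he : Function.Injective e := fun a b h => by
    have := congrArg (fun m : Fin 4 →₀ ℕ => m 0) h
    simp [e] at this
    exact Fin.ext this
  have h0 : sh w0 = X 0 := by simp [sh, w0]
  have h1 : sh w1 = X 2 := by simp [sh, w1]
  have hc : ⇑sh.toLinearMap ∘ vbasis n = ⇑(basisMonomials (Fin 4) ℂ) ∘ e := funext fun b => by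
    simp only [Function.comp_apply, AlgHom.toLinearMap_apply, coe_basisMonomials, vbasis, mon,
      map_mul, map_pow, h0, h1, e]
    rw [X_pow_eq_monomial, X_pow_eq_monomial, monomial_mul, one_mul]
  refine LinearIndependent.of_comp sh.toLinearMap ?_
  rw [hc]
  exact (basisMonomials (Fin 4) ℂ).linearIndependent.comp e he

theorem op_vbasis (n : ℕ) (a : Fin 4) (b : Fin (n + 1)) :
    ∃ c : Fin (n + 1) → ℂ, ∑ i, c i • vbasis n i = op a (vbasis n b) := by
  refine (Submodule.mem_span_range_iff_exists_fun ℂ).mp ?_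
  rw [← vs_eq_span]
  exact op_mem_vs (mon_mem (by omega)) a

/-- `Sym^n` as a representation with basis. -/
def rep (n : ℕ) : Rep where
  dim := n + 1
  vec := vbasis n
  mat a b := (op_vbasis n a b).choose
  op_vec a b := (op_vbasis n a b).choose_spec.symm
  indep := vbasis_indep n

theorem rep_vec_mem (n : ℕ) (b : Fin (rep n).dim) : (rep n).vec b ∈ vs n := by
  rw [vs_eq_span]; exact Submodule.subset_span ⟨b, rfl⟩

theorem exists_coeff {n : ℕ} {f : Pol} (hf : f ∈ vs n) :
    ∃ c : Fin (rep n).dim → ℂ, ∑ b, c b • (rep n).vec b = f := by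
  rw [vs_eq_span] at hf
  exact (Submodule.mem_span_range_iff_exists_fun ℂ).mp hf

/-- A matrix of operators acting on pairs of polynomials. -/
def app (M : Matrix (Fin 2) (Fin 2) Op) (f : Fin 2 → Pol) : Fin 2 → Pol :=
  fun i => ∑ k, M i k (f k)

theorem app_mul (M N : Matrix (Fin 2) (Fin 2) Op) (f : Fin 2 → Pol) :
    app (M * N) f = app M (app N f) := by
  funext i
  simp only [app, Matrix.mul_apply, LinearMap.sum_apply, Module.End.mul_apply, map_sum]
  exact Finset.sum_comm

/-- The contraction with the first column. -/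
def contr (f : Fin 2 → Pol) : Pol := pderiv (0 : Fin 4) (f 0) + pderiv (2 : Fin 4) (f 1)

/-- Multiplication by the first column. -/
def incl (g : Pol) : Fin 2 → Pol := ![w0 * g, w1 * g]

theorem pderiv_op {i : Fin 4} {a : Fin 4} {e : Derivation ℂ Pol Pol}
    (h : ∀ j, pderiv i (dv a (X j)) - dv a (pderiv i (X j)) = e (X j)) (f : Pol) :
    pderiv i (op a f) = op a (pderiv i f) + e f := by
  have he : ⁅pderiv i, dv a⁆ = e := derivation_ext fun j => by
    rw [Derivation.commutator_apply]; exact h j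
  rw [← he, Derivation.commutator_apply, op_apply, op_apply]
  abel

theorem contr_gen (a : Fin 4) (f : Fin 2 → Pol) :
    contr (app (twist op a) f) = op a (contr f) := by
  fin_cases a <;> simp [contr, app, twist, Fin.sum_univ_two, Matrix.vecHead, Matrix.vecTail]
  · rw [pderiv_op (e := pderiv 0) (fun j => by
      fin_cases j <;> simp [dv, mkDerivation_X, pderiv_X, Pi.single_apply]) (f 0),
      pderiv_op (e := 0) (fun j => by
      fin_cases j <;> simp [dv, mkDerivation_X, pderiv_X, Pi.single_apply]) (f 1)]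
    simp <;> abel
  · rw [pderiv_op (e := 0) (fun j => by
      fin_cases j <;> simp [dv, mkDerivation_X, pderiv_X, Pi.single_apply]) (f 0),
      pderiv_op (e := pderiv 2) (fun j => by
      fin_cases j <;> simp [dv, mkDerivation_X, pderiv_X, Pi.single_apply]) (f 1)]
    simp <;> abel
  · rw [pderiv_op (e := pderiv 2) (fun j => by
      fin_cases j <;> simp [dv, mkDerivation_X, pderiv_X, Pi.single_apply]) (f 0),
      pderiv_op (e := 0) (fun j => by
      fin_cases j <;> simp [dv, mkDerivation_X, pderiv_X, Pi.single_apply]) (f 1)]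
    simp <;> abel
  · rw [pderiv_op (e := 0) (fun j => by
      fin_cases j <;> simp [dv, mkDerivation_X, pderiv_X, Pi.single_apply]) (f 0),
      pderiv_op (e := pderiv 0) (fun j => by
      fin_cases j <;> simp [dv, mkDerivation_X, pderiv_X, Pi.single_apply]) (f 1)]
    simp <;> abel

theorem incl_gen (a : Fin 4) (g : Pol) : app (twist op a) (incl g) = incl (op a g) := by
  funext i
  fin_cases a <;> fin_cases i <;>
    simp [app, incl, twist, Fin.sum_univ_two, Matrix.vecHead, Matrix.vecTail, op_apply,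
      Derivation.leibniz, dv, mkDerivation_X, w0, w1] <;>
    ring

theorem app_one (f : Fin 2 → Pol) : app 1 f = f := by
  funext i
  rw [app, Finset.sum_eq_single i (fun b _ hb => by simp [Matrix.one_apply_ne (Ne.symm hb)])
    (by simp)]
  simp

theorem contr_word {d : ℤ} {u : Pair} (hu : u ∈ fil d) (f : Fin 2 → Pol) :
    contr (app u.2 f) = u.1 (contr f) := by
  induction hu using Submodule.span_induction generalizing f with
  | mem x hx =>
    obtain ⟨l, -, rfl⟩ := hx
    induction l generalizing f with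
    | nil => simp [word, app_one]
    | cons a l ih =>
      rw [word_cons, Prod.snd_mul, app_mul, Prod.fst_mul, Module.End.mul_apply, ← ih]
      exact contr_gen a _
  | zero => simp [contr, app]
  | add x y _ _ hx hy =>
    simp only [Prod.fst_add, Prod.snd_add, LinearMap.add_apply, ← hx, ← hy]
    simp [contr, app, Finset.sum_add_distrib]
    abel
  | smul c x _ hx =>
    simp only [Prod.smul_fst, Prod.smul_snd, LinearMap.smul_apply, ← hx]
    simp [contr, app, ← Finset.smul_sum, smul_add]

theorem incl_word {d : ℤ} {u : Pair} (hu : u ∈ fil d) (g : Pol) :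
    app u.2 (incl g) = incl (u.1 g) := by
  induction hu using Submodule.span_induction generalizing g with
  | mem x hx =>
    obtain ⟨l, -, rfl⟩ := hx
    induction l generalizing g with
    | nil =>
      funext i
      fin_cases i <;> simp [word, app, Matrix.one_apply, Fin.sum_univ_two, incl]
    | cons a l ih =>
      rw [word_cons, Prod.snd_mul, app_mul, ih, Prod.fst_mul, Module.End.mul_apply]
      exact incl_gen a _
  | zero =>
    funext i
    fin_cases i <;> simp [app, incl]
  | add x y _ _ hx hy =>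
    funext i
    have e1 := congrFun (hx g) i
    have e2 := congrFun (hy g) i
    fin_cases i <;> simp [app, incl, Fin.sum_univ_two] at e1 e2 ⊢ <;> linear_combination e1 + e2
  | smul c x _ hx =>
    funext i
    have e1 := congrFun (hx g) i
    fin_cases i <;> simp [app, incl, Fin.sum_univ_two] at e1 ⊢ <;>
      rw [← smul_add, e1]

theorem contr_mem {n : ℕ} {f : Fin 2 → Pol} (hf : ∀ i, f i ∈ vs n) : contr f ∈ vp n :=
  add_mem (vs_props (hf 0)).2.2.1 (vs_props (hf 1)).2.2.2.1

theorem incl_mem {n : ℕ} {g : Pol} (hg : g ∈ vp n) (i : Fin 2) : incl g i ∈ vs n := by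
  fin_cases i
  exacts [(w_mul_mem hg).1, (w_mul_mem hg).2]

theorem app_dmat {n : ℕ} {f : Fin 2 → Pol} (hf : ∀ i, f i ∈ vs n) (i : Fin 2) :
    app (dmat op) f i = incl (contr f) i - ((n + 1 : ℕ) : ℂ) • f i := by
  obtain ⟨-, o1, o2, -⟩ := op_vs (hf 0)
  obtain ⟨o0', o1', o2', o3'⟩ := op_vs (hf 1)
  obtain ⟨o0, -, -, o3⟩ := op_vs (hf 0)
  obtain ⟨-, -, -, -, e0⟩ := vs_props (hf 0)
  obtain ⟨-, -, -, -, e1⟩ := vs_props (hf 1)
  simp only [smul_eq_C_mul, map_natCast] at e0 e1 ⊢
  fin_cases i <;>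
    simp [app, dmat, incl, contr, Fin.sum_univ_two, o0, o1, o2, o3, o0', o1', o2', o3']
  · linear_combination -e0
  · linear_combination -e1

theorem contr_incl {n : ℕ} {g : Pol} (hg : g ∈ vp n) :
    contr (incl g) = ((n + 1 : ℕ) : ℂ) • g := by
  cases n with
  | zero =>
    obtain rfl : g = 0 := by simpa [vp] using hg
    simp [contr, incl]
  | succ n =>
    obtain ⟨-, -, -, -, e⟩ := vs_props (show g ∈ vs n from hg)
    obtain ⟨a, b, -, -, a', b', -, -⟩ := pderiv_w
    simp only [smul_eq_C_mul, map_natCast] at e ⊢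
    simp [contr, incl, pderiv_mul, a, b, a', b']
    linear_combination e

theorem incl_injective : Function.Injective incl := fun g h e => by
  have := congrFun e 1
  simp [incl, w1] at this
  exact this

end Vale.Agent.P176
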